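import Vale.Agent.Lib.MathlibUsed
import Mathlib.GroupTheory.Perm.DomMulAct
import Mathlib.Analysis.SpecialFunctions.Log.NegMulLog

/-!
The first moment method for one random permutation.
-/

namespace Vale.Agent.N333

open Finset
open scoped Nat

/-- Number of marked points. -/
def sz {P : Type} [Fintype P] (s : P → Bool) : ℕ := ∑ x, (s x).toNat

section Count

variable {P : Type} [Fintype P] [DecidableEq P]

omit [DecidableEq P] in
theorem sz_eq_card (s : P → Bool) : sz s = Fintype.card {a // s a = true} := by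
  rw [sz, Fintype.card_subtype, card_filter]
  refine sum_congr rfl fun x _ => ?_
  cases s x <;> simp

omit [DecidableEq P] in
theorem card_false (s : P → Bool) : Fintype.card {a // s a = false} = Fintype.card P - sz s := by
  rw [sz_eq_card, ← Fintype.card_subtype_compl]
  refine Fintype.card_congr (Equiv.subtypeEquivRight fun a => ?_)
  simp

omit [DecidableEq P] in
theorem sz_le (s : P → Bool) : sz s ≤ Fintype.card P := by
  rw [sz_eq_card]; exact Fintype.card_subtype_le _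

omit [DecidableEq P] in
theorem sz_comp (s : P → Bool) (π : Equiv.Perm P) : sz (s ∘ π) = sz s :=
  Equiv.sum_comp π fun x => (s x).toNat

theorem card_perm_le (s0 s1 : P → Bool) :
    (univ.filter fun π : Equiv.Perm P => s1 ∘ π = s0).card ≤
      (sz s1)! * (Fintype.card P - sz s1)! := by
  rcases (univ.filter fun π : Equiv.Perm P => s1 ∘ π = s0).eq_empty_or_nonempty with h | ⟨π0, h0⟩
  · rw [h]; exact Nat.zero_le _
  have h0' : s1 ∘ π0 = s0 := (mem_filter.1 h0).2
  have h1 := DomMulAct.stabilizer_card (f := s1)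
  rw [Fintype.prod_bool, ← sz_eq_card, card_false, Fintype.card_subtype] at h1
  rw [← h1]
  refine card_le_card_of_injOn (fun π => π * π0⁻¹) (fun π hπ => ?_) fun π _ π' _ h => ?_
  · have h2 : s1 ∘ π = s0 := (mem_filter.1 hπ).2
    simp only [coe_filter, mem_univ, true_and, Set.mem_ofPred_eq]
    funext x
    have h3 := congrFun h2 (π0⁻¹ x)
    have h4 := congrFun h0' (π0⁻¹ x)
    simp only [Function.comp_apply, Equiv.Perm.coe_inv, Equiv.apply_symm_apply] at h3 h4
    simp only [Function.comp_apply, Equiv.Perm.coe_mul, Equiv.Perm.coe_inv]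
    rw [h3, h4]
  · exact mul_right_cancel h

end Count

theorem pow_mul_factorial_le (a j : ℕ) : a ^ j * a ! ≤ a ^ a * j ! := by
  rcases le_total a j with h | h
  · obtain ⟨d, rfl⟩ := Nat.exists_eq_add_of_le h
    have h1 := Nat.factorial_mul_pow_sub_le_factorial h
    rw [Nat.add_sub_cancel_left] at h1
    rw [pow_add, mul_assoc]
    exact Nat.mul_le_mul_left _ (by rw [mul_comm]; exact h1)
  · obtain ⟨d, rfl⟩ := Nat.exists_eq_add_of_le h
    have h1 := Nat.factorial_mul_descFactorial (n := j + d) (k := d) (Nat.le_add_left _ _)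
    rw [Nat.add_sub_cancel] at h1
    have h2 := Nat.descFactorial_le_pow (j + d) d
    rw [← h1, pow_add, mul_assoc]
    refine Nat.mul_le_mul_left _ ?_
    rw [mul_comm]
    exact Nat.mul_le_mul_right _ h2

/-- The mode of the binomial distribution. -/
theorem mode_bound (a b : ℕ) :
    (a + b) ^ (a + b) * (a ! * b !) ≤ (a + b + 1) * ((a + b)! * (a ^ a * b ^ b)) := by
  rw [add_pow, sum_mul]
  have h : ∀ j ∈ range (a + b + 1), a ^ j * b ^ (a + b - j) * ((a + b).choose j : ℕ) * (a ! * b !) ≤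
      (a + b)! * (a ^ a * b ^ b) := by
    intro j hj
    have h1 := Nat.choose_mul_factorial_mul_factorial (Nat.lt_succ_iff.1 (mem_range.1 hj))
    have h2 := Nat.mul_le_mul (pow_mul_factorial_le a j) (pow_mul_factorial_le b (a + b - j))
    rw [← h1]
    calc a ^ j * b ^ (a + b - j) * ((a + b).choose j : ℕ) * (a ! * b !)
        = (a + b).choose j * (a ^ j * a ! * (b ^ (a + b - j) * b !)) := by
          ring
      _ ≤ (a + b).choose j * (a ^ a * j ! * (b ^ b * (a + b - j)!)) := Nat.mul_le_mul_left _ h2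
      _ = _ := by ring
  have h3 := sum_le_card_nsmul _ _ _ h
  rwa [card_range, smul_eq_mul] at h3

/-- The entropy factor. -/
noncomputable def ent (K k : ℕ) : ℝ := ((k : ℝ) / K) ^ k * (((K - k : ℕ) : ℝ) / K) ^ (K - k)

theorem ent_nonneg (K k : ℕ) : 0 ≤ ent K k := by unfold ent; positivity

theorem fact_le_ent {K k : ℕ} (h : k ≤ K) :
    ((k ! * (K - k)! : ℕ) : ℝ) ≤ (K + 1) * ent K k * (K ! : ℕ) := by
  rcases Nat.eq_zero_or_pos K with rfl | hK
  · obtain rfl : k = 0 := by omega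
    simp [ent]
  obtain ⟨b, rfl⟩ := Nat.exists_eq_add_of_le h
  have h1 : (((k + b) ^ (k + b) * (k ! * b !) : ℕ) : ℝ) ≤
      (((k + b + 1) * ((k + b)! * (k ^ k * b ^ b)) : ℕ) : ℝ) := by exact_mod_cast mode_bound k b
  have h2 : (0 : ℝ) < ((k + b : ℕ) : ℝ) := by exact_mod_cast hK
  rw [ent, Nat.add_sub_cancel_left, div_pow, div_pow, div_mul_div_comm, ← pow_add, mul_assoc,
    div_mul_eq_mul_div, ← mul_div_assoc, le_div_iff₀ (by positivity)]
  push_cast at h1 ⊢
  linarith

/-- The first moment method. -/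
theorem exists_perm {P ι : Type} [Fintype P] [DecidableEq P] [Fintype ι]
    (Bad : ι → (P → Bool) → (P → Bool) → Prop) {δ : ℝ}
    (h : ∀ i, ∀ k ≤ Fintype.card P, ∃ W : (P → Bool) → (P → Bool) → ℝ, (∀ s t, 0 ≤ W s t) ∧
      (∀ s t, Bad i s t → sz s = k → sz t = k → 1 ≤ W s t) ∧
      (∑ s, ∑ t, W s t) * ent (Fintype.card P) k ≤ δ)
    (hδ : Fintype.card ι * ((Fintype.card P + 1) ^ 2 * δ) < 1) :
    ∃ π : Equiv.Perm P, ∀ i s, ¬ Bad i (s ∘ π) s := by
  classical
  by_contra hc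
  push Not at hc
  choose! W hW0 hW1 hW2 using h
  set K := Fintype.card P with hK
  have hf : (0 : ℝ) < (K ! : ℕ) := by exact_mod_cast Nat.factorial_pos K
  have h1 : ∀ π : Equiv.Perm P, (1 : ℝ) ≤ ∑ i, ∑ k ∈ range (K + 1), ∑ s, ∑ t,
      if t ∘ π = s ∧ sz t = k then W i k s t else 0 := by
    intro π
    obtain ⟨i, t, hb⟩ := hc π
    have h0 : ∀ i, ∀ k ∈ range (K + 1), ∀ s t,
        (0 : ℝ) ≤ if t ∘ π = s ∧ sz t = k then W i k s t else 0 := by
      intro i k hk s t
      split_ifs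
      · exact hW0 i k (Nat.lt_succ_iff.1 (mem_range.1 hk)) s t
      · exact le_rfl
    have hk : sz t ∈ range (K + 1) := mem_range.2 (Nat.lt_succ_of_le (sz_le t))
    refine le_trans ?_ (single_le_sum (fun i _ => sum_nonneg fun k hk => sum_nonneg fun s _ =>
      sum_nonneg fun t _ => h0 i k hk s t) (mem_univ i))
    refine le_trans ?_ (single_le_sum (fun k hk => sum_nonneg fun s _ =>
      sum_nonneg fun t _ => h0 i k hk s t) hk)
    refine le_trans ?_ (single_le_sum (fun s _ => sum_nonneg fun t' _ => h0 i _ hk s t')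
      (mem_univ (t ∘ π)))
    refine le_trans ?_ (single_le_sum (fun t' _ => h0 i _ hk _ t') (mem_univ t))
    rw [if_pos ⟨rfl, rfl⟩]
    exact hW1 i _ (sz_le t) _ _ hb (sz_comp t π) rfl
  have h2 : ∀ i, ∀ k ∈ range (K + 1), ∑ π : Equiv.Perm P, ∑ s, ∑ t,
      (if t ∘ π = s ∧ sz t = k then W i k s t else 0) ≤ (K + 1) * δ * (K ! : ℕ) := by
    intro i k hk
    have hk' : k ≤ K := Nat.lt_succ_iff.1 (mem_range.1 hk)
    have h3 : ∀ s t, ∑ π : Equiv.Perm P, (if t ∘ π = s ∧ sz t = k then W i k s t else 0) ≤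
        W i k s t * ((K + 1) * ent K k * (K ! : ℕ)) := by
      intro s t
      by_cases ht : sz t = k
      · simp only [ht, and_true]
        rw [← sum_filter, sum_const, nsmul_eq_mul, mul_comm]
        refine mul_le_mul_of_nonneg_left (le_trans ?_ (fact_le_ent hk')) (hW0 i k hk' s t)
        have := card_perm_le s t
        rw [ht] at this
        exact_mod_cast this
      · simp only [ht, and_false, if_false, sum_const_zero]
        exact mul_nonneg (hW0 i k hk' s t) (by have := ent_nonneg K k; positivity)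
    rw [sum_comm]
    calc ∑ s, ∑ π : Equiv.Perm P, ∑ t, (if t ∘ π = s ∧ sz t = k then W i k s t else 0)
        ≤ ∑ s, ∑ t, W i k s t * ((K + 1) * ent K k * (K ! : ℕ)) :=
          sum_le_sum fun s _ => by
            rw [sum_comm]
            exact sum_le_sum fun t _ => h3 s t
      _ = (K + 1) * ((∑ s, ∑ t, W i k s t) * ent K k) * (K ! : ℕ) := by
          simp only [← sum_mul]
          ring
      _ ≤ _ := by
          have := hW2 i k hk'
          gcongr
  have h4 : ((K ! : ℕ) : ℝ) ≤ Fintype.card ι * ((K + 1) ^ 2 * δ) * (K ! : ℕ) := by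
    calc ((K ! : ℕ) : ℝ) = ∑ _π : Equiv.Perm P, (1 : ℝ) := by
          rw [sum_const, card_univ, Fintype.card_perm, nsmul_eq_mul, mul_one]
      _ ≤ ∑ π : Equiv.Perm P, ∑ i, ∑ k ∈ range (K + 1), ∑ s, ∑ t,
          if t ∘ π = s ∧ sz t = k then W i k s t else 0 := sum_le_sum fun π _ => h1 π
      _ = ∑ i, ∑ k ∈ range (K + 1), ∑ π : Equiv.Perm P, ∑ s, ∑ t,
          if t ∘ π = s ∧ sz t = k then W i k s t else 0 := by
          rw [sum_comm]
          exact sum_congr rfl fun i _ => sum_comm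
      _ ≤ ∑ _i : ι, ∑ _k ∈ range (K + 1), (K + 1) * δ * (K ! : ℕ) :=
          sum_le_sum fun i _ => sum_le_sum fun k hk => h2 i k hk
      _ = _ := by
          simp only [sum_const, card_univ, card_range, nsmul_eq_mul]
          push_cast
          ring
  have h5 := mul_lt_mul_of_pos_right hδ hf
  linarith

/-- The relative entropy function. -/
noncomputable def hh (a b t : ℝ) : ℝ :=
  -Real.negMulLog t - Real.negMulLog (1 - t) - t * Real.log a - (1 - t) * Real.log b

theorem log_ent {a b : ℝ} (ha : 0 < a) (hb : 0 < b) {K k : ℕ} (hK : 0 < K) (h : k ≤ K) :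
    0 < ((k : ℝ) / K / a) ^ k * (((K - k : ℕ) : ℝ) / K / b) ^ (K - k) ∧
    Real.log (((k : ℝ) / K / a) ^ k * (((K - k : ℕ) : ℝ) / K / b) ^ (K - k)) =
      K * hh a b (k / K) := by
  have hK' : (0 : ℝ) < K := by exact_mod_cast hK
  have h1 : ∀ (c : ℝ) (j : ℕ), 0 < c → 0 < ((j : ℝ) / K / c) ^ j ∧
      Real.log (((j : ℝ) / K / c) ^ j) =
        K * (-Real.negMulLog (j / K) - j / K * Real.log c) := by
    intro c j hc
    rcases Nat.eq_zero_or_pos j with rfl | hj
    · simp
    have hj' : (0 : ℝ) < j := by exact_mod_cast hj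
    refine ⟨by positivity, ?_⟩
    rw [Real.log_pow, Real.log_div (by positivity) hc.ne', Real.negMulLog]
    field_simp
  obtain ⟨p1, e1⟩ := h1 a k ha
  obtain ⟨p2, e2⟩ := h1 b (K - k) hb
  refine ⟨mul_pos p1 p2, ?_⟩
  rw [Real.log_mul p1.ne' p2.ne', e1, e2, hh]
  have e3 : ((K - k : ℕ) : ℝ) / K = 1 - k / K := by
    rw [Nat.cast_sub h]; field_simp
  rw [e3]; ring

theorem hh_le_of_between {a b t1 t2 t : ℝ} (h0 : 0 ≤ t1) (h1 : t1 ≤ t) (h2 : t ≤ t2) (h3 : t2 ≤ 1)
    (e1 : hh a b t1 ≤ 0) (e2 : hh a b t2 ≤ 0) : hh a b t ≤ 0 := by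
  rcases eq_or_lt_of_le (h1.trans h2) with h | h
  · have : t = t1 := le_antisymm (h ▸ h2) h1
    rwa [this]
  have hd : 0 < t2 - t1 := sub_pos.2 h
  set θ := (t2 - t) / (t2 - t1) with hθ
  have θ0 : 0 ≤ θ := div_nonneg (sub_nonneg.2 h2) hd.le
  have θ1 : 0 ≤ 1 - θ := by rw [sub_nonneg, div_le_one hd]; linarith
  have ht : t = θ * t1 + (1 - θ) * t2 := by rw [hθ]; field_simp; ring
  have c1 := Real.concaveOn_negMulLog.2 (Set.mem_Ici.2 h0) (Set.mem_Ici.2 (h0.trans h.le)) θ0 θ1
    (by ring)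
  have c2 := Real.concaveOn_negMulLog.2 (Set.mem_Ici.2 (show 0 ≤ 1 - t1 by linarith))
    (Set.mem_Ici.2 (show 0 ≤ 1 - t2 by linarith)) θ0 θ1 (by ring)
  simp only [smul_eq_mul] at c1 c2
  have ht' : θ * (1 - t1) + (1 - θ) * (1 - t2) = 1 - t := by rw [ht]; ring
  rw [← ht] at c1
  rw [ht'] at c2
  have e3 := add_nonpos (mul_nonpos_of_nonneg_of_nonpos θ0 e1) (mul_nonpos_of_nonneg_of_nonpos θ1 e2)
  have e4 : hh a b t ≤ θ * hh a b t1 + (1 - θ) * hh a b t2 := by
    simp only [hh]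
    have e5 : t * Real.log a = θ * (t1 * Real.log a) + (1 - θ) * (t2 * Real.log a) := by
      rw [ht]; ring
    have e6 : (1 - t) * Real.log b =
        θ * ((1 - t1) * Real.log b) + (1 - θ) * ((1 - t2) * Real.log b) := by
      rw [← ht']; ring
    rw [e5, e6]
    linarith
  linarith

/-- The entropy factor on an interval, from the two end points. -/
theorem ent_le {a b : ℝ} (ha : 0 < a) (hb : 0 < b) {D u1 u2 K k : ℕ} (hD : 0 < D) (hu : u1 ≤ u2)
    (hu2 : u2 ≤ D)
    (e1 : ((u1 : ℝ) / D / a) ^ u1 * (((D - u1 : ℕ) : ℝ) / D / b) ^ (D - u1) ≤ 1)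
    (e2 : ((u2 : ℝ) / D / a) ^ u2 * (((D - u2 : ℕ) : ℝ) / D / b) ^ (D - u2) ≤ 1)
    (hk : k ≤ K) (h1 : u1 * K ≤ D * k) (h2 : D * k ≤ u2 * K) :
    ent K k ≤ a ^ k * b ^ (K - k) := by
  rcases Nat.eq_zero_or_pos K with rfl | hK
  · obtain rfl : k = 0 := by omega
    simp [ent]
  have hD' : (0 : ℝ) < D := by exact_mod_cast hD
  have hK' : (0 : ℝ) < K := by exact_mod_cast hK
  have f : ∀ u ≤ D, ((u : ℝ) / D / a) ^ u * (((D - u : ℕ) : ℝ) / D / b) ^ (D - u) ≤ 1 →
      hh a b (u / D) ≤ 0 := by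
    intro u hu e
    obtain ⟨p, q⟩ := log_ent ha hb hD hu
    have := Real.log_nonpos p.le e
    rw [q] at this
    exact nonpos_of_mul_nonpos_right this hD' |>.trans le_rfl
  have g : hh a b (k / K) ≤ 0 := by
    refine hh_le_of_between (t1 := u1 / D) (t2 := u2 / D) (by positivity) ?_ ?_ ?_
      (f u1 (hu.trans hu2) e1) (f u2 hu2 e2)
    · rw [div_le_div_iff₀ hD' hK']
      have : ((u1 * K : ℕ) : ℝ) ≤ (D * k : ℕ) := by exact_mod_cast h1
      push_cast at this; linarith
    · rw [div_le_div_iff₀ hK' hD']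
      have : ((D * k : ℕ) : ℝ) ≤ (u2 * K : ℕ) := by exact_mod_cast h2
      push_cast at this; linarith
    · rw [div_le_one hD']; exact_mod_cast hu2
  obtain ⟨p, q⟩ := log_ent ha hb hK hk
  have h3 : ((k : ℝ) / K / a) ^ k * (((K - k : ℕ) : ℝ) / K / b) ^ (K - k) ≤ 1 := by
    rw [← Real.log_nonpos_iff p.le, q]
    exact mul_nonpos_of_nonneg_of_nonpos hK'.le g
  rw [div_pow _ a, div_pow _ b, div_mul_div_comm, div_le_one (by positivity)] at h3
  exact h3

end Vale.Agent.N333
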