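import Vale.Agent.N333.AmpDefs
import Vale.Agent.N333.AmpCore

/-!
Existence of typed amplifiers.
-/

namespace Vale.Agent.N333

open Finset

section Transfer

variable {K : Type} [CommRing K]

/-- Edge weight. -/
def ew (y : K) (b c : Bool) : K := y ^ dd b c

/-- Vertex weight. -/
def vw (mu : K) (b : Bool) : K := mu ^ b.toNat

/-- One step of the transfer recursion. -/
def tr (y mu : K) (f : Bool → K) (b : Bool) : K :=
  vw mu b * (ew y b true * f true + ew y b false * f false)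

/-- Partition function of a half path with first value `b`. -/
def hz (y mu p : K) : Bool → K := tr y mu (tr y mu (tr y mu (tr y mu fun b => vw mu b * vw p b)))

/-- Partition function of a unit. -/
def uz (y mu p : K) : K :=
  hz y mu p true * (ew y true true * hz y mu p true + ew y true false * hz y mu p false) +
    hz y mu p false * (ew y false true * hz y mu p true + ew y false false * hz y mu p false)

/-- Weight of a half path. -/
def hw (y mu p : K) (σ : Fin 5 → Bool) : K :=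
  y ^ cutP σ * mu ^ (∑ m, (σ m).toNat) * p ^ (σ 4).toNat

theorem sum_pi_succ {M : Type} [AddCommMonoid M] {n : ℕ} (F : (Fin (n + 1) → Bool) → M) :
    ∑ σ, F σ = ∑ b, ∑ τ : Fin n → Bool, F (Fin.cons b τ) := by
  rw [← (Fin.consEquiv fun _ : Fin (n + 1) => Bool).sum_comp, Fintype.sum_prod_type]
  rfl

theorem sum_five {M : Type} [AddCommMonoid M] (F : (Fin 5 → Bool) → M) :
    ∑ σ, F σ = ∑ a, ∑ b, ∑ c, ∑ d, ∑ e, F ![a, b, c, d, e] := by
  simp only [sum_pi_succ, univ_unique, sum_singleton]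
  rfl

theorem hw_vec (y mu p : K) (a b c d e : Bool) : hw y mu p ![a, b, c, d, e] =
    vw mu a * (ew y a b * (vw mu b * (ew y b c * (vw mu c * (ew y c d * (vw mu d *
      (ew y d e * (vw mu e * vw p e)))))))) := by
  have h1 : cutP ![a, b, c, d, e] = dd a b + dd b c + dd c d + dd d e := rfl
  have h2 : ∑ m, ((![a, b, c, d, e] : Fin 5 → Bool) m).toNat =
      a.toNat + b.toNat + c.toNat + d.toNat + e.toNat := by
    rw [Fin.sum_univ_five]; rfl
  have h3 : (![a, b, c, d, e] : Fin 5 → Bool) 4 = e := rfl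
  rw [hw, h1, h2, h3]
  simp only [ew, vw, pow_add]
  ring

theorem sum_hw (y mu p : K) (g : Bool → K) :
    ∑ σ, hw y mu p σ * g (σ 0) = hz y mu p true * g true + hz y mu p false * g false := by
  rw [sum_five]
  have h0 : ∀ a b c d e : Bool, (![a, b, c, d, e] : Fin 5 → Bool) 0 = a := fun _ _ _ _ _ => rfl
  simp only [hw_vec, h0, ← mul_sum, ← sum_mul]
  simp only [Fintype.sum_bool, hz, tr]

/-- Weight of a unit. -/
def uw (y mu p : K) (σ τ : Fin 5 → Bool) : K :=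
  y ^ cutU σ τ * mu ^ (∑ m, (σ m).toNat + ∑ m, (τ m).toNat) * p ^ ends σ τ

theorem sum_uw (y mu p : K) : ∑ σ, ∑ τ, uw y mu p σ τ = uz y mu p := by
  have h : ∀ σ τ, uw y mu p σ τ = hw y mu p σ * (hw y mu p τ * ew y (σ 0) (τ 0)) := by
    intro σ τ
    simp only [uw, hw, ew, cutU, ends, pow_add]
    ring
  simp only [h, ← mul_sum]
  have h2 : ∀ b, ∑ τ, hw y mu p τ * ew y b (τ 0) =
      ew y b true * hz y mu p true + ew y b false * hz y mu p false := fun b => by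
    rw [sum_hw y mu p (ew y b)]; ring
  simp only [h2]
  exact sum_hw y mu p fun b => ew y b true * hz y mu p true + ew y b false * hz y mu p false

theorem uz_cast (y mu p : ℚ) : ((uz y mu p : ℚ) : ℝ) = uz (y : ℝ) mu p := by
  simp [uz, hz, tr, ew, vw]

end Transfer

section Prod

variable {A B : Type} [Fintype A] [DecidableEq A] [Fintype B] [DecidableEq B]

theorem sum_sum_prod (w : A → (B → Bool) → (B → Bool) → ℝ) :
    ∑ s : A → B → Bool, ∑ t : A → B → Bool, ∏ a, w a (s a) (t a) = ∏ a, ∑ σ, ∑ τ, w a σ τ := by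
  rw [Finset.prod_univ_sum, Fintype.piFinset_univ]
  refine sum_congr rfl fun s _ => ?_
  rw [Finset.prod_univ_sum, Fintype.piFinset_univ]

/-- Currying of functions on slots. -/
def cur (E F G : Type) : (E × F × G → Bool) ≃ (E × F → G → Bool) where
  toFun s a m := s (a.1, a.2, m)
  invFun s x := s (x.1, x.2.1) x.2.2
  left_inv _ := rfl
  right_inv _ := rfl

end Prod

/-- A row of the table: interval, `y`, `mu`, `w`, `B`, `psi`. -/
abbrev Row : Type := ℕ × ℕ × ℚ × ℚ × ℚ × ℚ × ℚ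

/-- The conditions on a row. -/
def RowOk : Row → Prop
  | (u1, u2, y, mu, w, b, psi) =>
    u1 ≤ u2 ∧ u2 ≤ 1000 ∧ 0 < y ∧ y ≤ 1 ∧ 0 < mu ∧ 0 < w ∧ 0 < b ∧ 0 < psi ∧ y ≤ w ^ 100 ∧
    0 ≤ uz y mu 1 ∧ 0 ≤ uz y mu y⁻¹ ∧ uz y mu 1 * b ^ 5 ≤ psi ∧ uz y mu y⁻¹ * b ^ 5 * y ≤ psi ∧
    uz y mu y⁻¹ * b ^ 5 * (uz y mu 1 * b ^ 5) ≤ psi ^ 2 ∧ psi * w ≤ 199 / 200 ∧
    ((u1 : ℚ) / 1000 / (b * mu ^ 2)) ^ u1 * (((1000 - u1 : ℕ) : ℚ) / 1000 / b) ^ (1000 - u1) ≤ 1 ∧
    ((u2 : ℚ) / 1000 / (b * mu ^ 2)) ^ u2 * (((1000 - u2 : ℕ) : ℚ) / 1000 / b) ^ (1000 - u2) ≤ 1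

theorem row1 : RowOk (0, 19, 191/5000000, 841/10000, 11291/12500, 10001/10000, 549/500) := by
  unfold RowOk; decide +kernel

theorem row2 : RowOk (19, 45, 149/100000, 9/50, 93699/100000, 48573/50000, 2653/2500) := by
  unfold RowOk; decide +kernel

theorem row3 : RowOk (45, 225, 267/10000, 379/1000, 48221/50000, 90829/100000, 10311/10000) := by
  unfold RowOk; decide +kernel

theorem row4 : RowOk (225, 500, 459/5000, 187/250, 97641/100000, 13373/20000, 79727/100000) := by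
  unfold RowOk; decide +kernel

theorem exists_row {N k : ℕ} (h : 2 * k ≤ N) :
    ∃ r : Row, RowOk r ∧ r.1 * N ≤ 1000 * k ∧ 1000 * k ≤ r.2.1 * N := by
  by_cases h1 : 1000 * k ≤ 19 * N
  · exact ⟨_, row1, by simp, h1⟩
  by_cases h2 : 1000 * k ≤ 45 * N
  · exact ⟨_, row2, by simp only; omega, h2⟩
  by_cases h3 : 1000 * k ≤ 225 * N
  · exact ⟨_, row3, by simp only; omega, h3⟩
  · exact ⟨_, row4, by simp only; omega, by simp only; omega⟩

theorem pow_mix {a b y psi : ℝ} (ha : 0 ≤ a) (hb : 0 ≤ b) (hy : 0 ≤ y)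
    (h1 : b ≤ psi) (h2 : a * y ≤ psi) (h3 : a * b ≤ psi ^ 2) {u n : ℕ} (hu : u ≤ n) :
    a ^ u * b ^ (n - u) * y ^ (2 * u - n) ≤ psi ^ n := by
  obtain ⟨v, rfl⟩ := Nat.exists_eq_add_of_le hu
  rw [Nat.add_sub_cancel_left]
  rcases le_total u v with h | h
  · obtain ⟨d, rfl⟩ := Nat.exists_eq_add_of_le h
    rw [show 2 * u - (u + (u + d)) = 0 by omega, pow_zero, mul_one]
    calc a ^ u * b ^ (u + d) = (a * b) ^ u * b ^ d := by rw [mul_pow, pow_add]; ring
      _ ≤ (psi ^ 2) ^ u * psi ^ d := by gcongr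
      _ = _ := by ring
  · obtain ⟨d, rfl⟩ := Nat.exists_eq_add_of_le h
    rw [show 2 * (v + d) - (v + d + v) = d by omega]
    calc a ^ (v + d) * b ^ v * y ^ d = (a * b) ^ v * (a * y) ^ d := by
          rw [mul_pow, mul_pow, pow_add]; ring
      _ ≤ (psi ^ 2) ^ v * psi ^ d := by gcongr
      _ = _ := by ring

theorem one_le_weight {y w : ℝ} (hy : 0 < y) (hy1 : y ≤ 1) (hw : 0 < w) (h : y ≤ w ^ 100)
    {c e m : ℕ} (hb : 100 * c + m ≤ 100 * e) : 1 ≤ y ^ c * y⁻¹ ^ e * w ^ m := by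
  rw [← one_le_pow_iff_of_nonneg (n := 100) (by positivity) (by norm_num)]
  have h1 : y ^ (100 * e) ≤ y ^ (100 * c + m) := pow_le_pow_of_le_one hy.le hy1 hb
  have h2 : y ^ m ≤ (w ^ 100) ^ m := by gcongr
  have h3 : (y ^ c * y⁻¹ ^ e * w ^ m) ^ 100 = y ^ (100 * c) * (w ^ 100) ^ m / y ^ (100 * e) := by
    rw [inv_pow]
    field_simp
    ring
  rw [h3, le_div_iff₀ (by positivity), one_mul]
  refine h1.trans ?_
  rw [pow_add]
  gcongr

/-- The bad event. -/
def BadP {n R : ℕ} (U : Finset (Fin n)) (s t : Fin n × Fin R × Fin 5 → Bool) : Prop :=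
  2 * sz t ≤ 5 * (n * R) ∧
    100 * (∑ e, ∑ r, cutU (fun m => s (e, r, m)) (fun m => t (e, r, m)) + R * (2 * U.card - n)) +
      n * R < 100 * ∑ e ∈ U, ∑ r, ends (fun m => s (e, r, m)) (fun m => t (e, r, m))

theorem sz_eq {n R : ℕ} (s : Fin n × Fin R × Fin 5 → Bool) :
    sz s = ∑ e, ∑ r, ∑ m, (s (e, r, m)).toNat := by
  simp only [sz, Fintype.sum_prod_type]

theorem exists_weight {n R : ℕ} (U : Finset (Fin n)) (k : ℕ)
    (hk : k ≤ Fintype.card (Fin n × Fin R × Fin 5)) :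
    ∃ W : (Fin n × Fin R × Fin 5 → Bool) → (Fin n × Fin R × Fin 5 → Bool) → ℝ,
      (∀ s t, 0 ≤ W s t) ∧ (∀ s t, BadP U s t → sz s = k → sz t = k → 1 ≤ W s t) ∧
      (∑ s, ∑ t, W s t) * ent (Fintype.card (Fin n × Fin R × Fin 5)) k ≤ (199 / 200) ^ (n * R) := by
  have hN : Fintype.card (Fin n × Fin R × Fin 5) = 5 * (n * R) := by
    simp only [Fintype.card_prod, Fintype.card_fin]; ring
  rw [hN] at hk ⊢
  by_cases h2 : 2 * k ≤ 5 * (n * R)
  swap
  · refine ⟨fun _ _ => 0, fun _ _ => le_rfl, fun s t hb _ ht => absurd (ht ▸ hb.1) h2, ?_⟩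
    simp only [sum_const_zero, zero_mul]
    positivity
  obtain ⟨⟨u1, u2, y, mu, w, b, psi⟩, ⟨c1, c2, c3, c4, c5, c6, c7, c8, c9, c10, c11, c12, c13, c14,
    c15, c16, c17⟩, h3, h4⟩ := exists_row h2
  have d3 : (0 : ℝ) < y := by exact_mod_cast c3
  have d4 : (y : ℝ) ≤ 1 := by exact_mod_cast c4
  have d5 : (0 : ℝ) < mu := by exact_mod_cast c5
  have d6 : (0 : ℝ) < w := by exact_mod_cast c6
  have d7 : (0 : ℝ) < b := by exact_mod_cast c7
  have d8 : (0 : ℝ) < psi := by exact_mod_cast c8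
  have d9 : (y : ℝ) ≤ w ^ 100 := by exact_mod_cast c9
  have e1 : uz (y : ℝ) mu 1 = ((uz y mu 1 : ℚ) : ℝ) := by rw [uz_cast]; simp
  have e2 : uz (y : ℝ) mu (y : ℝ)⁻¹ = ((uz y mu y⁻¹ : ℚ) : ℝ) := by rw [uz_cast]; simp
  have d10 : 0 ≤ uz (y : ℝ) mu 1 := by rw [e1]; exact_mod_cast c10
  have d11 : 0 ≤ uz (y : ℝ) mu (y : ℝ)⁻¹ := by rw [e2]; exact_mod_cast c11
  have d12 : uz (y : ℝ) mu 1 * b ^ 5 ≤ psi := by rw [e1]; exact_mod_cast c12
  have d13 : uz (y : ℝ) mu (y : ℝ)⁻¹ * b ^ 5 * y ≤ psi := by rw [e2]; exact_mod_cast c13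
  have d14 : uz (y : ℝ) mu (y : ℝ)⁻¹ * b ^ 5 * (uz (y : ℝ) mu 1 * b ^ 5) ≤ psi ^ 2 := by
    rw [e1, e2]; exact_mod_cast c14
  have d15 : (psi : ℝ) * w ≤ 199 / 200 := by
    have : ((psi * w : ℚ) : ℝ) ≤ ((199 / 200 : ℚ) : ℝ) := Rat.cast_le.2 c15
    push_cast at this
    exact this
  have d16 : ent (5 * (n * R)) k ≤ ((b : ℝ) * mu ^ 2) ^ k * b ^ (5 * (n * R) - k) := by
    refine ent_le (D := 1000) (by positivity) d7 (by norm_num) c1 c2 ?_ ?_ hk h3 h4
    · have := (Rat.cast_le (K := ℝ)).2 c16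
      generalize 1000 - u1 = v at this ⊢
      push_cast at this ⊢
      exact this
    · have := (Rat.cast_le (K := ℝ)).2 c17
      generalize 1000 - u2 = v at this ⊢
      push_cast at this ⊢
      exact this
  set p : Fin n → ℝ := fun e => if e ∈ U then (y : ℝ)⁻¹ else 1 with hp
  have hp0 : ∀ e, 0 ≤ p e := fun e => by simp only [hp]; split_ifs <;> positivity
  set c0 : ℝ := y ^ (R * (2 * U.card - n)) * w ^ (n * R) / mu ^ (2 * k) with hc0
  refine ⟨fun s t => c0 * ∏ a : Fin n × Fin R,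
    uw (y : ℝ) mu (p a.1) (fun m => s (a.1, a.2, m)) (fun m => t (a.1, a.2, m)), fun s t => ?_,
    fun s t hb hs ht => ?_, ?_⟩
  · refine mul_nonneg (by positivity) (prod_nonneg fun a _ => ?_)
    have := hp0 a.1
    unfold uw
    positivity
  · simp only [uw, prod_mul_distrib, prod_pow_eq_pow_sum, Fintype.sum_prod_type, sum_add_distrib,
      Fintype.prod_prod_type]
    rw [← sz_eq, ← sz_eq, hs, ht]
    have h5 : ∏ e, p e ^ ∑ r, ends (fun m => s (e, r, m)) (fun m => t (e, r, m)) =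
        (y : ℝ)⁻¹ ^ ∑ e ∈ U, ∑ r, ends (fun m => s (e, r, m)) (fun m => t (e, r, m)) := by
      rw [← prod_pow_eq_pow_sum, ← prod_subset (subset_univ U) fun e _ he => by simp [hp, he]]
      exact prod_congr rfl fun e he => by simp [hp, he]
    rw [h5]
    refine (one_le_weight d3 d4 d6 d9 hb.2.le).trans (le_of_eq ?_)
    rw [hc0, pow_add]
    field_simp
    ring
  · have h5 : ∑ s : Fin n × Fin R × Fin 5 → Bool, ∑ t : Fin n × Fin R × Fin 5 → Bool,
        ∏ a : Fin n × Fin R,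
          uw (y : ℝ) mu (p a.1) (fun m => s (a.1, a.2, m)) (fun m => t (a.1, a.2, m)) =
        ∏ a : Fin n × Fin R, uz (y : ℝ) mu (p a.1) := by
      simp only [← sum_uw]
      rw [← sum_sum_prod, ← (cur (Fin n) (Fin R) (Fin 5)).sum_comp]
      refine sum_congr rfl fun s _ => ?_
      rw [← (cur (Fin n) (Fin R) (Fin 5)).sum_comp]
      rfl
    have h6 : ∏ a : Fin n × Fin R, uz (y : ℝ) mu (p a.1) =
        (uz (y : ℝ) mu (y : ℝ)⁻¹ ^ U.card * uz (y : ℝ) mu 1 ^ (n - U.card)) ^ R := by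
      rw [Fintype.prod_prod_type]
      simp only [prod_const, card_univ, Fintype.card_fin]
      rw [prod_pow, ← prod_mul_prod_compl U]
      congr 2
      · rw [← prod_const]
        exact prod_congr rfl fun e he => by simp only [hp, if_pos he]
      · rw [prod_congr rfl (g := fun _ => uz (y : ℝ) mu 1)
          fun e he => by simp only [hp, if_neg (mem_compl.1 he)], prod_const,
          card_compl, Fintype.card_fin]
    have hU : U.card ≤ n := by simpa using card_le_univ U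
    have h7 := pow_mix (mul_nonneg d11 (pow_pos d7 5).le) (mul_nonneg d10 (pow_pos d7 5).le) d3.le
      d12 d13 d14 hU
    simp only [← mul_sum]
    rw [h5, h6]
    refine (mul_le_mul_of_nonneg_left d16 (by positivity)).trans ?_
    have h8 : c0 * (uz (y : ℝ) mu (y : ℝ)⁻¹ ^ U.card * uz (y : ℝ) mu 1 ^ (n - U.card)) ^ R *
        (((b : ℝ) * mu ^ 2) ^ k * b ^ (5 * (n * R) - k)) =
        ((uz (y : ℝ) mu (y : ℝ)⁻¹ * b ^ 5) ^ U.card * (uz (y : ℝ) mu 1 * b ^ 5) ^ (n - U.card) *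
          y ^ (2 * U.card - n)) ^ R * w ^ (n * R) := by
      have h9 : (b : ℝ) ^ k * b ^ (5 * (n * R) - k) =
          (((b : ℝ) ^ 5) ^ U.card * ((b : ℝ) ^ 5) ^ (n - U.card)) ^ R := by
        rw [← pow_add, ← pow_add, ← pow_mul, ← pow_mul, Nat.add_sub_cancel' hk,
          Nat.add_sub_cancel' hU]
      rw [hc0, mul_pow (b : ℝ) (mu ^ 2), mul_right_comm ((b : ℝ) ^ k), h9, ← pow_mul (mu : ℝ),
        mul_comm R, pow_mul (y : ℝ)]
      simp only [mul_pow]
      field_simp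
    rw [h8]
    calc _ ≤ ((psi : ℝ) ^ n) ^ R * w ^ (n * R) := by gcongr
      _ = (psi * w) ^ (n * R) := by rw [← pow_mul, mul_pow]
      _ ≤ _ := by gcongr

theorem exists_R : ∃ R : ℕ, 0 < R ∧ 2 * ((5 * R + 1 : ℝ) ^ 2 * (199 / 200) ^ R) < 1 := by
  have h := tendsto_pow_const_mul_const_pow_of_abs_lt_one 2
    (show |(199 / 200 : ℝ)| < 1 by rw [abs_of_pos] <;> norm_num)
  obtain ⟨R, h1, h2⟩ := ((h.eventually (gt_mem_nhds (show (0 : ℝ) < 1 / 72 by norm_num))).and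
    (Filter.eventually_ge_atTop 1)).exists
  refine ⟨R, h2, ?_⟩
  have h3 : (1 : ℝ) ≤ R := by exact_mod_cast h2
  have h4 : (5 * R + 1 : ℝ) ^ 2 ≤ 36 * R ^ 2 := by nlinarith
  have h5 := mul_le_mul_of_nonneg_right h4 (show (0 : ℝ) ≤ (199 / 200) ^ R by positivity)
  linarith

/-- Amplifiers exist. -/
theorem ampEx : AmpEx := by
  obtain ⟨R, hR, h⟩ := exists_R
  refine ⟨R, hR, fun n => ?_⟩
  rcases Nat.eq_zero_or_pos n with rfl | hn
  · refine ⟨1, fun U _ τ _ => ?_⟩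
    rw [Subsingleton.elim U ∅]
    simp
  obtain ⟨π, hπ⟩ := exists_perm (ι := Finset (Fin n)) (P := Fin n × Fin R × Fin 5) BadP
    (δ := (199 / 200) ^ (n * R)) exists_weight (by
      have h1 : (1 : ℝ) + n * (5 * R) ≤ (1 + 5 * R) ^ n :=
        one_add_mul_le_pow (by have : (0 : ℝ) ≤ R := Nat.cast_nonneg R; linarith) n
      have h2 : (2 * ((5 * R + 1 : ℝ) ^ 2 * (199 / 200) ^ R)) ^ n < 1 :=
        pow_lt_one₀ (by positivity) h hn.ne'
      refine lt_of_le_of_lt ?_ h2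
      simp only [Fintype.card_finset, Fintype.card_prod, Fintype.card_fin]
      push_cast
      rw [mul_pow, mul_pow, ← pow_mul, ← pow_mul, mul_comm 2 n, pow_mul _ n 2, mul_comm R n]
      rw [add_comm 1 (5 * R : ℝ), add_comm, mul_comm 5 (R : ℝ)] at h1
      rw [mul_comm 5 (R : ℝ)]
      gcongr)
  refine ⟨π, fun U _ τ hτ => ?_⟩
  have h1 := hπ U τ
  rw [BadP, not_and, not_lt, sz_eq] at h1
  simp only [card_univ, Fintype.card_fin] at hτ ⊢
  exact h1 hτ

end Vale.Agent.N333
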