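import Vale.Agent.N333.AmpDefs4
import Vale.Agent.N333.Amp

/-!
Existence of typed amplifiers with units on eight slots.
-/

namespace Vale.Agent.N333.K4

open Finset

section Transfer

variable {K : Type} [CommRing K]

/-- Partition function of a half path with first value `b`. -/
def hz (y mu p : K) : Bool → K := tr y mu (tr y mu (tr y mu fun b => vw mu b * vw p b))

/-- Partition function of a unit. -/
def uz (y mu p : K) : K :=
  hz y mu p true * (ew y true true * hz y mu p true + ew y true false * hz y mu p false) +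
    hz y mu p false * (ew y false true * hz y mu p true + ew y false false * hz y mu p false)

/-- Weight of a half path. -/
def hw (y mu p : K) (σ : Fin 4 → Bool) : K :=
  y ^ cutP σ * mu ^ (∑ m, (σ m).toNat) * p ^ (σ 3).toNat

theorem sum_four {M : Type} [AddCommMonoid M] (F : (Fin 4 → Bool) → M) :
    ∑ σ, F σ = ∑ a, ∑ b, ∑ c, ∑ d, F ![a, b, c, d] := by
  simp only [sum_pi_succ, univ_unique, sum_singleton]
  rfl

theorem hw_vec (y mu p : K) (a b c d : Bool) : hw y mu p ![a, b, c, d] =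
    vw mu a * (ew y a b * (vw mu b * (ew y b c * (vw mu c * (ew y c d * (vw mu d * vw p d)))))) := by
  have h1 : cutP ![a, b, c, d] = dd a b + dd b c + dd c d := rfl
  have h2 : ∑ m, ((![a, b, c, d] : Fin 4 → Bool) m).toNat =
      a.toNat + b.toNat + c.toNat + d.toNat := by
    rw [Fin.sum_univ_four]; rfl
  have h3 : (![a, b, c, d] : Fin 4 → Bool) 3 = d := rfl
  rw [hw, h1, h2, h3]
  simp only [ew, vw, pow_add]
  ring

theorem sum_hw (y mu p : K) (g : Bool → K) :
    ∑ σ, hw y mu p σ * g (σ 0) = hz y mu p true * g true + hz y mu p false * g false := by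
  rw [sum_four]
  have h0 : ∀ a b c d : Bool, (![a, b, c, d] : Fin 4 → Bool) 0 = a := fun _ _ _ _ => rfl
  simp only [hw_vec, h0, ← mul_sum, ← sum_mul]
  simp only [Fintype.sum_bool, hz, tr]

/-- Weight of a unit. -/
def uw (y mu p : K) (σ τ : Fin 4 → Bool) : K :=
  y ^ cutU σ τ * mu ^ (∑ m, (σ m).toNat + ∑ m, (τ m).toNat) * p ^ ends σ τ

theorem sum_uw (y mu p : K) : ∑ σ, ∑ τ, uw y mu p σ τ = uz y mu p := by
  have h : ∀ σ τ, uw y mu p σ τ = hw y mu p σ * (hw y mu p τ * ew y (σ 0) (τ 0)) := by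
    intro σ τ
    simp only [uw, hw, ew, cutU, ends, pow_add]
    ring
  simp only [h, ← mul_sum]
  have h2 : ∀ b, ∑ τ, hw y mu p τ * ew y b (τ 0) =
      ew y b true * hz y mu p true + ew y b false * hz y mu p false := fun b => by
    rw [sum_hw y mu p (ew y b)]; ring
  simp only [h2]
  exact sum_hw y mu p fun b => ew y b true * hz y mu p true + ew y b false * hz y mu p false

theorem uz_cast (y mu p : ℚ) : ((uz y mu p : ℚ) : ℝ) = uz (y : ℝ) mu p := by
  simp [uz, hz, tr, ew, vw]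

end Transfer

/-- A row of the table: interval, `y`, `mu`, `p`, `nu`, `w`, `B`, `psi`. -/
abbrev Row : Type := ℕ × ℕ × ℚ × ℚ × ℚ × ℚ × ℚ × ℚ × ℚ

/-- The conditions on a row. -/
def RowOk : Row → Prop
  | (u1, u2, y, mu, p, nu, w, b, psi) =>
    u1 ≤ u2 ∧ u2 ≤ 1000 ∧ 0 < y ∧ y ≤ 1 ∧ 0 < mu ∧ 0 < w ∧ 0 < b ∧ 0 < psi ∧ y ≤ w ^ 125 ∧
    0 ≤ uz y mu nu ∧ 0 ≤ uz y mu (p * nu) ∧ uz y mu nu * b ^ 4 ≤ psi ∧
    uz y mu (p * nu) * b ^ 4 * y ≤ psi ∧
    uz y mu (p * nu) * b ^ 4 * (uz y mu nu * b ^ 4) ≤ psi ^ 2 ∧ psi * w / nu ≤ 999 / 1000 ∧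
    ((u1 : ℚ) / 1000 / (b * mu ^ 2)) ^ u1 * (((1000 - u1 : ℕ) : ℚ) / 1000 / b) ^ (1000 - u1) ≤ 1 ∧
    ((u2 : ℚ) / 1000 / (b * mu ^ 2)) ^ u2 * (((1000 - u2 : ℕ) : ℚ) / 1000 / b) ^ (1000 - u2) ≤ 1 ∧
    0 < p ∧ 0 < nu ∧ nu ≤ 1 ∧ 1 ≤ y ^ 19 * p ^ 20

theorem row1 : RowOk (0, 18, 2611/10000000, 327/4000, 253533/100,
    1, 936127/1000000, 100001/100000, 13313/12500) := by
  unfold RowOk; decide +kernel

theorem row2 : RowOk (18, 29, 3007/1000000, 309/2000, 62189/250,
    1, 59663/62500, 977343/1000000, 52287/50000) := by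
  unfold RowOk; decide +kernel

theorem row3 : RowOk (29, 44, 847/125000, 97/500, 14371/125,
    1, 960833/1000000, 964511/1000000, 103907/100000) := by
  unfold RowOk; decide +kernel

theorem row4 : RowOk (44, 104, 421/20000, 2787/10000, 195831/5000,
    1, 484793/500000, 934239/1000000, 1287/1250) := by
  unfold RowOk; decide +kernel

theorem row5 : RowOk (104, 297, 1407/20000, 4911/10000, 1556/125,
    1, 97899/100000, 830379/1000000, 101931/100000) := by
  unfold RowOk; decide +kernel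

theorem row6 : RowOk (297, 461, 1171/10000, 7793/10000, 383567/50000,
    8293/10000, 982989/1000000, 63117/100000, 420829/500000) := by
  unfold RowOk; decide +kernel

theorem row7 : RowOk (461, 539, 623/5000, 1001/1000, 904/125,
    3719/10000, 983477/1000000, 501063/1000000, 377617/1000000) := by
  unfold RowOk; decide +kernel

theorem row8 : RowOk (539, 705, 117/1000, 1287/1000, 767757/100000,
    1559/10000, 491491/500000, 382091/1000000, 158359/1000000) := by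
  unfold RowOk; decide +kernel

theorem row9 : RowOk (705, 1000, 4423/100000, 699/250, 193451/10000,
    3343/500000, 487681/500000, 5117/40000, 136959/25000000) := by
  unfold RowOk; decide +kernel

theorem exists_row {N k : ℕ} (h : k ≤ N) :
    ∃ r : Row, RowOk r ∧ r.1 * N ≤ 1000 * k ∧ 1000 * k ≤ r.2.1 * N := by
  by_cases h1 : 1000 * k ≤ 18 * N
  · exact ⟨_, row1, by simp, h1⟩
  by_cases h2 : 1000 * k ≤ 29 * N
  · exact ⟨_, row2, by simp only; omega, h2⟩
  by_cases h3 : 1000 * k ≤ 44 * N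
  · exact ⟨_, row3, by simp only; omega, h3⟩
  by_cases h4 : 1000 * k ≤ 104 * N
  · exact ⟨_, row4, by simp only; omega, h4⟩
  by_cases h5 : 1000 * k ≤ 297 * N
  · exact ⟨_, row5, by simp only; omega, h5⟩
  by_cases h6 : 1000 * k ≤ 461 * N
  · exact ⟨_, row6, by simp only; omega, h6⟩
  by_cases h7 : 1000 * k ≤ 539 * N
  · exact ⟨_, row7, by simp only; omega, h7⟩
  by_cases h8 : 1000 * k ≤ 705 * N
  · exact ⟨_, row8, by simp only; omega, h8⟩
  · exact ⟨_, row9, by simp only; omega, by simp only; omega⟩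

theorem one_le_weight {y w p : ℝ} (hy : 0 < y) (hy1 : y ≤ 1) (hw : 0 < w) (hp : 0 < p)
    (h : y ≤ w ^ 125) (h' : 1 ≤ y ^ 19 * p ^ 20) {c e m : ℕ} (hb : 1000 * c + 8 * m ≤ 950 * e) :
    1 ≤ y ^ c * p ^ e * w ^ m := by
  rw [← one_le_pow_iff_of_nonneg (n := 1000) (by positivity) (by norm_num)]
  have h1 : y ^ (950 * e) ≤ y ^ (1000 * c + 8 * m) := pow_le_pow_of_le_one hy.le hy1 hb
  have h2 : y ^ (8 * m) ≤ (w ^ 125) ^ (8 * m) := by gcongr
  have h3 : (y ^ c * p ^ e * w ^ m) ^ 1000 =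
      y ^ (1000 * c) * (w ^ 125) ^ (8 * m) * p ^ (1000 * e) := by
    rw [mul_pow, mul_pow, ← pow_mul, ← pow_mul, ← pow_mul, ← pow_mul, mul_comm c, mul_comm e,
      show m * 1000 = 125 * (8 * m) by ring, mul_right_comm]
  have h4 : (y ^ 19 * p ^ 20) ^ (50 * e) = y ^ (950 * e) * p ^ (1000 * e) := by
    rw [mul_pow, ← pow_mul, ← pow_mul, show 19 * (50 * e) = 950 * e by ring,
      show 20 * (50 * e) = 1000 * e by ring]
  rw [h3]
  refine (one_le_pow₀ h' (n := 50 * e)).trans ?_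
  rw [h4]
  refine mul_le_mul_of_nonneg_right (h1.trans ?_) (by positivity)
  rw [pow_add]
  exact mul_le_mul_of_nonneg_left h2 (by positivity)

/-- The bad event. -/
def BadP {n R : ℕ} (U : Finset (Fin n)) (s t : Fin n × Fin R × Fin 4 → Bool) : Prop :=
  ∑ e, ∑ r, ends (fun m => s (e, r, m)) (fun m => t (e, r, m)) ≤ n * R ∧
    1000 * (∑ e, ∑ r, cutU (fun m => s (e, r, m)) (fun m => t (e, r, m)) + R * (2 * U.card - n)) +
      8 * (n * R) < 950 * ∑ e ∈ U, ∑ r, ends (fun m => s (e, r, m)) (fun m => t (e, r, m))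

theorem sz_eq {n R : ℕ} (s : Fin n × Fin R × Fin 4 → Bool) :
    sz s = ∑ e, ∑ r, ∑ m, (s (e, r, m)).toNat := by
  simp only [sz, Fintype.sum_prod_type]

theorem exists_weight {n R : ℕ} (U : Finset (Fin n)) (k : ℕ)
    (hk : k ≤ Fintype.card (Fin n × Fin R × Fin 4)) :
    ∃ W : (Fin n × Fin R × Fin 4 → Bool) → (Fin n × Fin R × Fin 4 → Bool) → ℝ,
      (∀ s t, 0 ≤ W s t) ∧ (∀ s t, BadP U s t → sz s = k → sz t = k → 1 ≤ W s t) ∧
      (∑ s, ∑ t, W s t) * ent (Fintype.card (Fin n × Fin R × Fin 4)) k ≤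
        (999 / 1000) ^ (n * R) := by
  have hN : Fintype.card (Fin n × Fin R × Fin 4) = 4 * (n * R) := by
    simp only [Fintype.card_prod, Fintype.card_fin]; ring
  rw [hN] at hk ⊢
  obtain ⟨⟨u1, u2, y, mu, q, nu, w, b, psi⟩, ⟨c1, c2, c3, c4, c5, c6, c7, c8, c9, c10, c11, c12,
    c13, c14, c15, c16, c17, c18, c19, c20, c21⟩, h3, h4⟩ := exists_row hk
  have d3 : (0 : ℝ) < y := by exact_mod_cast c3
  have d4 : (y : ℝ) ≤ 1 := by exact_mod_cast c4
  have d5 : (0 : ℝ) < mu := by exact_mod_cast c5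
  have d6 : (0 : ℝ) < w := by exact_mod_cast c6
  have d7 : (0 : ℝ) < b := by exact_mod_cast c7
  have d8 : (0 : ℝ) < psi := by exact_mod_cast c8
  have d9 : (y : ℝ) ≤ w ^ 125 := by exact_mod_cast c9
  have d18 : (0 : ℝ) < q := by exact_mod_cast c18
  have d19 : (0 : ℝ) < nu := by exact_mod_cast c19
  have d20 : (nu : ℝ) ≤ 1 := by exact_mod_cast c20
  have d21 : (1 : ℝ) ≤ y ^ 19 * q ^ 20 := by exact_mod_cast c21
  have e1 : uz (y : ℝ) mu nu = ((uz y mu nu : ℚ) : ℝ) := by rw [uz_cast]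
  have e2 : uz (y : ℝ) mu (q * nu) = ((uz y mu (q * nu) : ℚ) : ℝ) := by rw [uz_cast]; simp
  have d10 : 0 ≤ uz (y : ℝ) mu nu := by rw [e1]; exact_mod_cast c10
  have d11 : 0 ≤ uz (y : ℝ) mu (q * nu) := by rw [e2]; exact_mod_cast c11
  have d12 : uz (y : ℝ) mu nu * b ^ 4 ≤ psi := by rw [e1]; exact_mod_cast c12
  have d13 : uz (y : ℝ) mu (q * nu) * b ^ 4 * y ≤ psi := by rw [e2]; exact_mod_cast c13
  have d14 : uz (y : ℝ) mu (q * nu) * b ^ 4 * (uz (y : ℝ) mu nu * b ^ 4) ≤ psi ^ 2 := by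
    rw [e1, e2]; exact_mod_cast c14
  have d15 : (psi : ℝ) * w / nu ≤ 999 / 1000 := by
    have : ((psi * w / nu : ℚ) : ℝ) ≤ ((999 / 1000 : ℚ) : ℝ) := Rat.cast_le.2 c15
    push_cast at this
    exact this
  have d16 : ent (4 * (n * R)) k ≤ ((b : ℝ) * mu ^ 2) ^ k * b ^ (4 * (n * R) - k) := by
    refine ent_le (D := 1000) (by positivity) d7 (by norm_num) c1 c2 ?_ ?_ hk h3 h4
    · have := (Rat.cast_le (K := ℝ)).2 c16
      generalize 1000 - u1 = v at this ⊢
      push_cast at this ⊢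
      exact this
    · have := (Rat.cast_le (K := ℝ)).2 c17
      generalize 1000 - u2 = v at this ⊢
      push_cast at this ⊢
      exact this
  set p : Fin n → ℝ := fun e => if e ∈ U then (q : ℝ) else 1 with hp
  have hp0 : ∀ e, 0 ≤ p e := fun e => by simp only [hp]; split_ifs <;> positivity
  set c0 : ℝ := y ^ (R * (2 * U.card - n)) * (w / nu) ^ (n * R) / mu ^ (2 * k) with hc0
  refine ⟨fun s t => c0 * ∏ a : Fin n × Fin R,
    uw (y : ℝ) mu (p a.1 * nu) (fun m => s (a.1, a.2, m)) (fun m => t (a.1, a.2, m)),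
    fun s t => ?_, fun s t hb hs ht => ?_, ?_⟩
  · refine mul_nonneg (by positivity) (prod_nonneg fun a _ => ?_)
    have := hp0 a.1
    unfold uw
    positivity
  · simp only [uw, mul_pow, prod_mul_distrib, prod_pow_eq_pow_sum, Fintype.sum_prod_type,
      sum_add_distrib, Fintype.prod_prod_type]
    rw [← sz_eq, ← sz_eq, hs, ht]
    have h5 : ∏ e, p e ^ ∑ r, ends (fun m => s (e, r, m)) (fun m => t (e, r, m)) =
        (q : ℝ) ^ ∑ e ∈ U, ∑ r, ends (fun m => s (e, r, m)) (fun m => t (e, r, m)) := by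
      rw [← prod_pow_eq_pow_sum, ← prod_subset (subset_univ U) fun e _ he => by simp [hp, he]]
      exact prod_congr rfl fun e he => by simp [hp, he]
    rw [h5]
    have h6 := pow_le_pow_of_le_one d19.le d20 hb.1
    have h7 := one_le_weight d3 d4 d6 d18 d9 d21 hb.2.le
    have h8 : (1 : ℝ) ≤ nu ^ (∑ e, ∑ r, ends (fun m => s (e, r, m)) (fun m => t (e, r, m))) /
        nu ^ (n * R) := (one_le_div (by positivity)).2 h6
    refine (one_le_mul_of_one_le_of_one_le h7 h8).trans (le_of_eq ?_)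
    rw [hc0, pow_add, div_pow]
    field_simp
    ring
  · have h5 : ∑ s : Fin n × Fin R × Fin 4 → Bool, ∑ t : Fin n × Fin R × Fin 4 → Bool,
        ∏ a : Fin n × Fin R,
          uw (y : ℝ) mu (p a.1 * nu) (fun m => s (a.1, a.2, m)) (fun m => t (a.1, a.2, m)) =
        ∏ a : Fin n × Fin R, uz (y : ℝ) mu (p a.1 * nu) := by
      simp only [← sum_uw]
      rw [← sum_sum_prod, ← (cur (Fin n) (Fin R) (Fin 4)).sum_comp]
      refine sum_congr rfl fun s _ => ?_
      rw [← (cur (Fin n) (Fin R) (Fin 4)).sum_comp]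
      rfl
    have h6 : ∏ a : Fin n × Fin R, uz (y : ℝ) mu (p a.1 * nu) =
        (uz (y : ℝ) mu (q * nu) ^ U.card * uz (y : ℝ) mu nu ^ (n - U.card)) ^ R := by
      rw [Fintype.prod_prod_type]
      simp only [prod_const, card_univ, Fintype.card_fin]
      rw [prod_pow, ← prod_mul_prod_compl U]
      congr 2
      · rw [← prod_const]
        exact prod_congr rfl fun e he => by simp only [hp, if_pos he]
      · rw [prod_congr rfl (g := fun _ => uz (y : ℝ) mu nu)
          fun e he => by simp only [hp, if_neg (mem_compl.1 he), one_mul], prod_const,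
          card_compl, Fintype.card_fin]
    have hU : U.card ≤ n := by simpa using card_le_univ U
    have h7 := pow_mix (mul_nonneg d11 (pow_pos d7 4).le) (mul_nonneg d10 (pow_pos d7 4).le) d3.le
      d12 d13 d14 hU
    simp only [← mul_sum]
    rw [h5, h6]
    refine (mul_le_mul_of_nonneg_left d16 (by positivity)).trans ?_
    have h8 : c0 * (uz (y : ℝ) mu (q * nu) ^ U.card * uz (y : ℝ) mu nu ^ (n - U.card)) ^ R *
        (((b : ℝ) * mu ^ 2) ^ k * b ^ (4 * (n * R) - k)) =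
        ((uz (y : ℝ) mu (q * nu) * b ^ 4) ^ U.card * (uz (y : ℝ) mu nu * b ^ 4) ^ (n - U.card) *
          y ^ (2 * U.card - n)) ^ R * (w / nu) ^ (n * R) := by
      have h9 : (b : ℝ) ^ k * b ^ (4 * (n * R) - k) =
          (((b : ℝ) ^ 4) ^ U.card * ((b : ℝ) ^ 4) ^ (n - U.card)) ^ R := by
        rw [← pow_add, ← pow_add, ← pow_mul, ← pow_mul, Nat.add_sub_cancel' hk,
          Nat.add_sub_cancel' hU]
      rw [hc0, mul_pow (b : ℝ) (mu ^ 2), mul_right_comm ((b : ℝ) ^ k), h9, ← pow_mul (mu : ℝ),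
        mul_comm R, pow_mul (y : ℝ)]
      simp only [mul_pow]
      field_simp
    rw [h8]
    calc _ ≤ ((psi : ℝ) ^ n) ^ R * (w / nu) ^ (n * R) := by gcongr
      _ = (psi * w / nu) ^ (n * R) := by rw [← pow_mul, ← mul_pow, mul_div_assoc]
      _ ≤ _ := by gcongr

theorem exists_R : ∃ R : ℕ, 0 < R ∧ 2 * ((4 * R + 1 : ℝ) ^ 2 * (999 / 1000) ^ R) < 1 := by
  have h := tendsto_pow_const_mul_const_pow_of_abs_lt_one 2
    (show |(999 / 1000 : ℝ)| < 1 by rw [abs_of_pos] <;> norm_num)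
  obtain ⟨R, h1, h2⟩ := ((h.eventually (gt_mem_nhds (show (0 : ℝ) < 1 / 50 by norm_num))).and
    (Filter.eventually_ge_atTop 1)).exists
  refine ⟨R, h2, ?_⟩
  have h3 : (1 : ℝ) ≤ R := by exact_mod_cast h2
  have h4 : (4 * R + 1 : ℝ) ^ 2 ≤ 25 * R ^ 2 := by nlinarith
  have h5 := mul_le_mul_of_nonneg_right h4 (show (0 : ℝ) ≤ (999 / 1000) ^ R by positivity)
  linarith

/-- Amplifiers exist. -/
theorem ampEx : AmpEx := by
  obtain ⟨R, hR, h⟩ := exists_R
  refine ⟨R, hR, fun n => ?_⟩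
  rcases Nat.eq_zero_or_pos n with rfl | hn
  · refine ⟨1, fun U _ τ _ => ?_⟩
    rw [Subsingleton.elim U ∅]
    simp
  obtain ⟨π, hπ⟩ := exists_perm (ι := Finset (Fin n)) (P := Fin n × Fin R × Fin 4) BadP
    (δ := (999 / 1000) ^ (n * R)) exists_weight (by
      have h1 : (1 : ℝ) + n * (4 * R) ≤ (1 + 4 * R) ^ n :=
        one_add_mul_le_pow (by have : (0 : ℝ) ≤ R := Nat.cast_nonneg R; linarith) n
      have h2 : (2 * ((4 * R + 1 : ℝ) ^ 2 * (999 / 1000) ^ R)) ^ n < 1 :=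
        pow_lt_one₀ (by positivity) h hn.ne'
      refine lt_of_le_of_lt ?_ h2
      simp only [Fintype.card_finset, Fintype.card_prod, Fintype.card_fin]
      push_cast
      rw [mul_pow, mul_pow, ← pow_mul, ← pow_mul, mul_comm 2 n, pow_mul _ n 2, mul_comm R n]
      rw [add_comm 1 (4 * R : ℝ), add_comm, mul_comm 4 (R : ℝ)] at h1
      rw [mul_comm 4 (R : ℝ)]
      gcongr)
  refine ⟨π, fun U _ τ hτ => ?_⟩
  have h1 := hπ U τ
  rw [BadP, not_and, not_lt] at h1
  simp only [card_univ, Fintype.card_fin] at hτ ⊢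
  exact h1 hτ

end Vale.Agent.N333.K4
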