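import Vale.Agent.Lib.MathlibUsed

/-!
Typed amplifiers. A unit is a path on ten slots, five right slots `4,3,2,1,0` followed by five left
slots `0,1,2,3,4`; a permutation of the slots glues every left slot to a right slot.
-/

namespace Vale.Agent.N333

open Finset

/-- Indicator of inequality. -/
def dd (a b : Bool) : ℕ := if a = b then 0 else 1

/-- Number of changes along a half path. -/
def cutP (σ : Fin 5 → Bool) : ℕ :=
  dd (σ 0) (σ 1) + dd (σ 1) (σ 2) + dd (σ 2) (σ 3) + dd (σ 3) (σ 4)

/-- Number of changes along the path of a unit with left half `σ` and right half `τ`. -/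
def cutU (σ τ : Fin 5 → Bool) : ℕ := cutP σ + dd (σ 0) (τ 0) + cutP τ

/-- Number of marked end points of a unit. -/
def ends (σ τ : Fin 5 → Bool) : ℕ := (σ 4).toNat + (τ 4).toNat

/-- The amplifier property on the set `C` of types: if at most half of the slots over `C` are
marked, then for `U ⊆ C` the marked end points of units of a type in `U` are paid by the cut, up
to the excess of `U` over one half of `C` and an additive loss `|C| R / 100`. -/
def AmpOn {E : Type} {R : ℕ} (π : E × Fin R × Fin 5 → E × Fin R × Fin 5) (C : Finset E) : Prop :=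
  ∀ U ⊆ C, ∀ τ : E × Fin R × Fin 5 → Bool,
    2 * ∑ e ∈ C, ∑ r, ∑ m, (τ (e, r, m)).toNat ≤ 5 * (C.card * R) →
    100 * ∑ e ∈ U, ∑ r, ends (fun m => τ (π (e, r, m))) (fun m => τ (e, r, m)) ≤
      100 * (∑ e ∈ C, ∑ r, cutU (fun m => τ (π (e, r, m))) (fun m => τ (e, r, m)) +
        R * (2 * U.card - C.card)) + C.card * R

/-- Amplifiers exist for every number of types. -/
def AmpEx : Prop :=
  ∃ R : ℕ, 0 < R ∧ ∀ n : ℕ, ∃ π : Equiv.Perm (Fin n × Fin R × Fin 5), AmpOn π univ

end Vale.Agent.N333
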