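import Vale.Agent.N333.AmpDefs

/-!
Typed amplifiers with units on eight slots, four right slots `3,2,1,0` followed by four left
slots `0,1,2,3`; the minority is taken among the end points.
-/

namespace Vale.Agent.N333.K4

open Finset

/-- Number of changes along a half path. -/
def cutP (σ : Fin 4 → Bool) : ℕ := dd (σ 0) (σ 1) + dd (σ 1) (σ 2) + dd (σ 2) (σ 3)

/-- Number of changes along the path of a unit with left half `σ` and right half `τ`. -/
def cutU (σ τ : Fin 4 → Bool) : ℕ := cutP σ + dd (σ 0) (τ 0) + cutP τ

/-- Number of marked end points of a unit. -/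
def ends (σ τ : Fin 4 → Bool) : ℕ := (σ 3).toNat + (τ 3).toNat

/-- The amplifier property on the set `C` of types: if at most half of the end points over `C` are
marked, then for `U ⊆ C` a part `19/20` of the marked end points of units of a type in `U` is paid
by the cut, up to the excess of `U` over one half of `C` and an additive loss `|C| R / 125`. -/
def AmpOn {E : Type} {R : ℕ} (π : E × Fin R × Fin 4 → E × Fin R × Fin 4) (C : Finset E) : Prop :=
  ∀ U ⊆ C, ∀ τ : E × Fin R × Fin 4 → Bool,
    ∑ e ∈ C, ∑ r, ends (fun m => τ (π (e, r, m))) (fun m => τ (e, r, m)) ≤ C.card * R →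
    950 * ∑ e ∈ U, ∑ r, ends (fun m => τ (π (e, r, m))) (fun m => τ (e, r, m)) ≤
      1000 * (∑ e ∈ C, ∑ r, cutU (fun m => τ (π (e, r, m))) (fun m => τ (e, r, m)) +
        R * (2 * U.card - C.card)) + 8 * (C.card * R)

/-- Amplifiers exist for every number of types. -/
def AmpEx : Prop :=
  ∃ R : ℕ, 0 < R ∧ ∀ n : ℕ, ∃ π : Equiv.Perm (Fin n × Fin R × Fin 4), AmpOn π univ

end Vale.Agent.N333.K4
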