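import Vale.Agent.N333.Net4

/-!
The cost of the network with units on eight slots: completeness and soundness.
-/

namespace Vale.Agent.N333.K4

open Finset

variable {E : Type} {R : ℕ}

/-- The equation `e` is satisfied by the assignments `a 0, a 1, a 2` of the three layers. -/
def satE (var : Fin 3 → E → ℕ) (b : E → Bool) (a : Fin 3 → ℕ → Bool) (e : E) : Bool :=
  Bool.xor (Bool.xor (a 0 (var 0 e)) (a 1 (var 1 e))) (a 2 (var 2 e)) == b e

variable (var : Fin 3 → E → ℕ) (b : E → Bool) (π : Fin 3 → Equiv.Perm (Slot E R))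

/-- The states given by an assignment. -/
def honest (a : Fin 3 → ℕ → Bool) : Node E R → Bool
  | .inl q => a q.1 (var q.1 q.2.1)
  | .inr (.inl q) => a q.1 (var q.1 q.2.1)
  | .inr (.inr q) => decide ((b q.1).toNat + 2 ≤
      (a 0 (var 0 q.1)).toNat + (a 1 (var 1 q.1)).toNat + (a 2 (var 2 q.1)).toNat)

/-- The rank of the letters for the states given by an assignment. -/
def rank (a : Fin 3 → ℕ → Bool) : Let E R → ℕ
  | .inl q => if a q.1 (var q.1 q.2.1) then 10 - q.2.2.2 else ((π q.1).symm q.2).2.2
  | .inr _ => 5

variable {var π}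

theorem rank_lt (hπ : ∀ p j, var p (π p j).1 = var p j.1) (a : Fin 3 → ℕ → Bool)
    (ω : Node E R ⊕ E × Fin R) (l l' : Let E R)
    (h1 : (net b fun p => π p).st (honest var b a) ω = some l)
    (h2 : (net b fun p => π p).en (honest var b a) ω = some l') :
    rank var π a l < rank var π a l' := by
  rcases ω with (⟨p, j⟩ | q | q) | q
  · simp only [Sys.st, Sys.en, net] at h1 h2
    by_cases h : a p (var p j.1) = true
    · rw [if_pos (show honest var b a (.inl (p, j)) = true from h)] at h1 h2
      obtain rfl := Option.some.inj h1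
      obtain rfl := Option.some.inj h2
      have h3 : a p (var p (π p j).1) = true := by rw [hπ, h]
      have h4 := (π p j).2.2.2
      unfold nxR
      split_ifs with h5
      · simp only [rank, h3, if_true]
        omega
      · simp only [rank, h3, if_true]
        have : ∀ m : Fin 4, m ≠ 3 → 10 - ((m + 1 : Fin 4) : ℕ) < 10 - (m : ℕ) := by decide
        exact this _ h5
    · rw [if_neg (show ¬ honest var b a (.inl (p, j)) = true from h)] at h1 h2
      obtain rfl := Option.some.inj h1
      obtain rfl := Option.some.inj h2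
      unfold nxL
      split_ifs with h5
      · simp only [rank, hπ, h, Equiv.symm_apply_apply]
        exact Nat.lt_succ_of_lt j.2.2.2
      · simp only [rank, hπ, h, Equiv.symm_apply_apply]
        have : ∀ m : Fin 4, m ≠ 3 → (m : ℕ) < ((m + 1 : Fin 4) : ℕ) := by decide
        exact this _ h5
  · simp only [Sys.st, Sys.en, net] at h1 h2
    split_ifs at h1 h2
  · simp only [Sys.st, Sys.en, net] at h1 h2
    split_ifs at h1 h2
  · simp only [Sys.st, Sys.en, net] at h1 h2
    split_ifs at h1 h2

variable [Fintype E] [DecidableEq E]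

/-- Completeness. -/
theorem cost_honest (hπ : ∀ p j, var p (π p j).1 = var p j.1) (a : Fin 3 → ℕ → Bool) :
    (net b fun p => π p).cost (honest var b a) ≤
      59 * (Fintype.card E * R) + R * ∑ e, (!satE var b a e).toNat := by
  have hπ' : ∀ p j, var p ((π p).symm j).1 = var p j.1 := fun p j => by
    rw [← hπ p ((π p).symm j), Equiv.apply_symm_apply]
  have h1 : ∀ p j, max (outN b π (honest var b a) (.inl (p, π p j)))
      (inN b π (honest var b a) (.inl (p, π p j))) = 1 := by
    intro p j
    have e1 : honest var b a (preR π p (π p j)) = a p (var p j.1) := by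
      unfold preR
      split_ifs <;> simp only [honest, hπ, hπ']
    have e2 : honest var b a (preL p j) = a p (var p j.1) := by
      unfold preL
      split_ifs <;> simp only [honest]
    rw [outN_hub, inN_hub, e1, e2]
    simp only [honest]
    cases a p (var p j.1) <;> rfl
  have h2 : ∀ e r, max (outN b π (honest var b a) (.inr (e, r, true)))
      (inN b π (honest var b a) (.inr (e, r, true))) +
      max (outN b π (honest var b a) (.inr (e, r, false)))
      (inN b π (honest var b a) (.inr (e, r, false))) ≤ 3 + (!satE var b a e).toNat := by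
    intro e r
    simp only [outN_eqn, inN_eqn, Fin.sum_univ_three, honest, hπ', satE, fl]
    generalize a 0 (var 0 e) = x, a 1 (var 1 e) = y, a 2 (var 2 e) = z, b e = w
    revert x y z w
    decide
  rw [cost_net]
  simp only [h1]
  have h3 := sum_le_sum fun e (_ : e ∈ univ) => sum_le_sum fun r (_ : r ∈ univ) => h2 e r
  refine (Nat.add_le_add_left (Nat.add_le_add_left h3 _) _).trans (le_of_eq ?_)
  simp only [sum_add_distrib, sum_const, card_univ, Fintype.card_prod, Fintype.card_fin,
    smul_eq_mul, ← mul_sum]
  ring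

theorem dd_triangle (x y z : Bool) : dd y z ≤ dd x y + dd x z := by
  revert x y z
  decide

/-- The hubs of one layer. -/
theorem hub_sum (x : Node E R → Bool) (p : Fin 3) :
    9 * (Fintype.card E * R) + ∑ e, ∑ r, cutU (fun m => x (.inl (p, e, r, m)))
        (fun m => x (.inl (p, (π p).symm (e, r, m)))) ≤
      2 * ∑ j, max (outN b π x (.inl (p, π p j))) (inN b π x (.inl (p, π p j))) +
        ∑ e, ∑ r, ((x (.inl (p, (π p).symm (e, r, 3)))).toNat + (!x (.inl (p, e, r, 3))).toNat) := by
  have h1 : ∀ j, 2 * max (outN b π x (.inl (p, π p j))) (inN b π x (.inl (p, π p j))) =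
      ((x (preR π p (π p j))).toNat + dd (x (preR π p (π p j))) (x (.inl (p, (π p).symm (π p j))))) +
        (1 + (!x (preL p j)).toNat + dd (x (preL p j)) (x (.inl (p, j)))) := by
    intro j
    rw [outN_hub, inN_hub, Equiv.symm_apply_apply]
    generalize x (preR π p (π p j)) = u, x (preL p j) = v, x (.inl (p, j)) = w
    revert u v w
    decide
  have h2 : ∑ j, (x (.inl (p, (π p).symm j))).toNat = ∑ j, (x (.inl (p, j))).toNat :=
    Equiv.sum_comp (π p).symm fun j => (x (.inl (p, j))).toNat
  rw [mul_sum]
  simp only [h1]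
  rw [sum_add_distrib, Equiv.sum_comp (π p) fun j =>
    (x (preR π p j)).toNat + dd (x (preR π p j)) (x (.inl (p, (π p).symm j)))]
  have h3 : 9 * (Fintype.card E * R) = ∑ _e : E, ∑ _r : Fin R, 9 := by
    simp only [sum_const, card_univ, Fintype.card_fin, smul_eq_mul]
    ring
  refine le_of_add_le_add_right (a := ∑ j, (x (.inl (p, (π p).symm j))).toNat) ?_
  conv_rhs => rw [h2]
  simp only [h3, Fintype.sum_prod_type, ← sum_add_distrib]
  refine sum_le_sum fun e _ => sum_le_sum fun r _ => ?_
  have t := dd_triangle (x (.inr (.inl (p, e, r)))) (x (.inl (p, e, r, 0)))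
    (x (.inl (p, (π p).symm (e, r, 0))))
  have n : ∀ u : Bool, u.toNat + (!u).toNat = 1 := by decide
  have n0 := n (x (.inl (p, e, r, 0)))
  have n1 := n (x (.inl (p, e, r, 1)))
  have n2 := n (x (.inl (p, e, r, 2)))
  have n3 := n (x (.inl (p, e, r, 3)))
  have n5 := n (x (.inr (.inl (p, e, r))))
  simp only [Fin.sum_univ_four, cutU, cutP, preR, preL]
  simp only [Fin.reduceEq, if_true, if_false, Fin.reduceSub]
  omega

/-- The two hubs of an equation. -/
theorem eqn_sum (x : Node E R → Bool) (a : Fin 3 → ℕ → Bool) (e : E) (r : Fin R) :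
    3 + ∑ p, ((x (.inl (p, (π p).symm (e, r, 3)))).toNat + (!x (.inl (p, e, r, 3))).toNat) +
        2 * (!satE var b a e).toNat ≤
      2 * (max (outN b π x (.inr (e, r, true))) (inN b π x (.inr (e, r, true))) +
        max (outN b π x (.inr (e, r, false))) (inN b π x (.inr (e, r, false)))) +
      (!satE var b a e).toNat * ∑ p, ((Bool.xor (x (.inl (p, e, r, 3))) (a p (var p e))).toNat +
        (Bool.xor (x (.inl (p, (π p).symm (e, r, 3)))) (a p (var p e))).toNat) := by
  have k1 : ∀ s0 s1 t2 a0 a1 a2 w t : Bool,
      t2.toNat + (!t).toNat + (!w).toNat + (t.toNat + ((!s0).toNat + (!s1).toNat)) +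
        (!(Bool.xor (Bool.xor a0 a1) a2 == w)).toNat ≤
      2 * max (t2.toNat + (!t).toNat + (!w).toNat) (t.toNat + ((!s0).toNat + (!s1).toNat)) +
        (!(Bool.xor (Bool.xor a0 a1) a2 == w)).toNat *
          ((Bool.xor s0 a0).toNat + (Bool.xor s1 a1).toNat + (Bool.xor t2 a2).toNat) := by
    decide
  have k2 : ∀ t0 t1 s2 a0 a1 a2 w t : Bool,
      t0.toNat + t1.toNat + (!t).toNat + (t.toNat + (!s2).toNat + w.toNat) +
        (!(Bool.xor (Bool.xor a0 a1) a2 == w)).toNat ≤
      2 * max (t0.toNat + t1.toNat + (!t).toNat) (t.toNat + (!s2).toNat + w.toNat) +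
        (!(Bool.xor (Bool.xor a0 a1) a2 == w)).toNat *
          ((Bool.xor t0 a0).toNat + (Bool.xor t1 a1).toNat + (Bool.xor s2 a2).toNat) := by
    decide
  have n : ∀ u : Bool, u.toNat + (!u).toNat = 1 := by decide
  have h1 := k1 (x (.inl (0, e, r, 3))) (x (.inl (1, e, r, 3))) (x (.inl (2, (π 2).symm (e, r, 3))))
    (a 0 (var 0 e)) (a 1 (var 1 e)) (a 2 (var 2 e)) (b e) (x (.inr (.inr (e, r, true))))
  have h2 := k2 (x (.inl (0, (π 0).symm (e, r, 3)))) (x (.inl (1, (π 1).symm (e, r, 3))))
    (x (.inl (2, e, r, 3))) (a 0 (var 0 e)) (a 1 (var 1 e)) (a 2 (var 2 e)) (b e)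
    (x (.inr (.inr (e, r, false))))
  have n1 := n (b e)
  have n2 := n (x (.inr (.inr (e, r, true))))
  have n3 := n (x (.inr (.inr (e, r, false))))
  simp only [outN_eqn, inN_eqn, Fin.sum_univ_three, satE, fl]
  simp only [Fin.reduceEq, decide_true, decide_false, Bool.not_true, Bool.not_false, if_true,
    if_false, Bool.false_eq_true, Bool.true_eq_false, Bool.true_and, Bool.false_and,
    Bool.toNat_false, add_zero, zero_add, mul_add] at h1 h2 ⊢
  omega

/-- The two hubs of an equation, trivial bound. -/
theorem eqn_sum0 (x : Node E R → Bool) (e : E) (r : Fin R) :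
    3 + ∑ p, ((x (.inl (p, (π p).symm (e, r, 3)))).toNat + (!x (.inl (p, e, r, 3))).toNat) ≤
      2 * (max (outN b π x (.inr (e, r, true))) (inN b π x (.inr (e, r, true))) +
        max (outN b π x (.inr (e, r, false))) (inN b π x (.inr (e, r, false)))) := by
  have n : ∀ u : Bool, u.toNat + (!u).toNat = 1 := by decide
  have n1 := n (b e)
  have n2 := n (x (.inr (.inr (e, r, true))))
  have n3 := n (x (.inr (.inr (e, r, false))))
  simp only [outN_eqn, inN_eqn, Fin.sum_univ_three, fl]
  simp only [Fin.reduceEq, decide_true, decide_false, Bool.not_true, Bool.not_false, if_true,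
    if_false, Bool.false_eq_true, Bool.true_eq_false, Bool.true_and, Bool.false_and,
    Bool.toNat_false, add_zero, zero_add, mul_add]
  omega

/-- The two hubs of an equation, scaled. -/
theorem eqn_sum' (x : Node E R → Bool) (a : Fin 3 → ℕ → Bool) (e : E) (r : Fin R) :
    20 * (3 + ∑ p, ((x (.inl (p, (π p).symm (e, r, 3)))).toNat + (!x (.inl (p, e, r, 3))).toNat)) +
        38 * (!satE var b a e).toNat ≤
      40 * (max (outN b π x (.inr (e, r, true))) (inN b π x (.inr (e, r, true))) +
        max (outN b π x (.inr (e, r, false))) (inN b π x (.inr (e, r, false)))) +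
      19 * ((!satE var b a e).toNat *
        ∑ p, ((Bool.xor (x (.inl (p, e, r, 3))) (a p (var p e))).toNat +
        (Bool.xor (x (.inl (p, (π p).symm (e, r, 3)))) (a p (var p e))).toNat)) := by
  have h1 := eqn_sum b x a e r (π := π) (var := var)
  have h2 := eqn_sum0 b x e r (π := π)
  omega

omit [DecidableEq E] in
/-- In every layer, almost all variables occur in at most about as many violated equations as
satisfied ones. -/
theorem excess_le (var : Fin 3 → E → ℕ) {ε : ℝ}
    (hv : ∀ a, ((∑ e, (satE var b a e).toNat : ℕ) : ℝ) ≤ (1 / 2 + ε) * Fintype.card E)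
    (a : Fin 3 → ℕ → Bool) (p : Fin 3) :
    ((∑ v ∈ univ.image (var p), (2 * #{e | var p e = v ∧ satE var b a e = false} -
      #{e | var p e = v}) : ℕ) : ℝ) ≤ 2 * ε * Fintype.card E := by
  have key : ∀ (A : ℕ → Bool) (e : E),
      satE var b (Function.update a p fun v => Bool.xor (a p v) (A v)) e =
        Bool.xor (satE var b a e) (A (var p e)) := by
    intro A e
    fin_cases p <;> simp only [satE, Function.update] <;> simp <;>
      generalize a 0 (var 0 e) = x, a 1 (var 1 e) = y, a 2 (var 2 e) = z, b e = w <;>
      generalize A _ = u <;> revert x y z w u <;> decide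
  set A : ℕ → Bool := fun v =>
    decide (#{e | var p e = v} < 2 * #{e | var p e = v ∧ satE var b a e = false}) with hA
  have h1 := hv (Function.update a p fun v => Bool.xor (a p v) (A v))
  have h2 := hv (Function.update a p fun v => Bool.xor (a p v) true)
  simp only [key] at h1
  simp only [key fun _ => true] at h2
  have h3 : ∑ e, (Bool.xor (satE var b a e) true).toNat + ∑ e, (satE var b a e).toNat =
      Fintype.card E := by
    rw [← sum_add_distrib, ← card_univ, card_eq_sum_ones]
    exact sum_congr rfl fun e _ => by cases satE var b a e <;> rfl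
  have hm : ∀ e ∈ (univ : Finset E), var p e ∈ univ.image (var p) := fun e he =>
    mem_image_of_mem _ he
  have h4 : ∑ v ∈ univ.image (var p), (2 * #{e | var p e = v ∧ satE var b a e = false} -
      #{e | var p e = v}) + ∑ e, (satE var b a e).toNat ≤
      ∑ e, (Bool.xor (satE var b a e) (A (var p e))).toNat := by
    rw [← sum_fiberwise_of_maps_to hm, ← sum_fiberwise_of_maps_to hm
      (f := fun e => (Bool.xor (satE var b a e) (A (var p e))).toNat), ← sum_add_distrib]
    refine sum_le_sum fun v _ => ?_
    rw [sum_congr rfl fun e he => show (Bool.xor (satE var b a e) (A (var p e))).toNat =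
      (Bool.xor (satE var b a e) (A v)).toNat by rw [(mem_filter.1 he).2]]
    have e1 : #{e | var p e = v ∧ satE var b a e = false} =
        ∑ e with var p e = v, (Bool.xor (satE var b a e) true).toNat := by
      rw [← filter_filter, card_filter]
      exact sum_congr rfl fun e _ => by cases satE var b a e <;> rfl
    have e2 : #{e | var p e = v} = ∑ e with var p e = v, (Bool.xor (satE var b a e) true).toNat +
        ∑ e with var p e = v, (satE var b a e).toNat := by
      rw [← sum_add_distrib, card_eq_sum_ones]
      exact sum_congr rfl fun e _ => by cases satE var b a e <;> rfl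
    by_cases h : #{e | var p e = v} < 2 * #{e | var p e = v ∧ satE var b a e = false}
    · rw [show A v = true from decide_eq_true h]
      omega
    · rw [show A v = false from decide_eq_false h]
      simp only [Bool.xor_false]
      omega
  have h5 := (Nat.cast_le (α := ℝ)).2 h4
  have h6 := congrArg (Nat.cast : ℕ → ℝ) h3
  rw [Nat.cast_add] at h5 h6
  linarith

/-- Soundness. -/
theorem le_cost (hπ : ∀ p j, var p (π p j).1 = var p j.1)
    (hA : ∀ p v, AmpOn (π p) {e | var p e = v}) {ε : ℝ}
    (hv : ∀ a, ((∑ e, (satE var b a e).toNat : ℕ) : ℝ) ≤ (1 / 2 + ε) * Fintype.card E)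
    (x : Node E R → Bool) :
    (59 + 463 / 1000 - 79 / 20 * ε) * (Fintype.card E * R) ≤ ((net b fun p => π p).cost x : ℝ) := by
  set τ : Fin 3 → Slot E R → Bool := fun p j => x (.inl (p, (π p).symm j)) with hτ
  set a : Fin 3 → ℕ → Bool := fun p v => decide (#{e | var p e = v} * R <
    ∑ e with var p e = v, ∑ r, ((τ p (π p (e, r, 3))).toNat + (τ p (e, r, 3)).toNat)) with ha
  set μ : Fin 3 → Slot E R → Bool := fun p j => Bool.xor (τ p j) (a p (var p j.1)) with hμ
  have hμπ : ∀ p j, μ p (π p j) = Bool.xor (x (.inl (p, j))) (a p (var p j.1)) := fun p j => by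
    simp only [hμ, hτ, hπ, Equiv.symm_apply_apply]
  -- the amplifiers
  have h1 : ∀ p, 950 * ∑ e, ∑ r, (!satE var b a e).toNat *
      ((Bool.xor (x (.inl (p, e, r, 3))) (a p (var p e))).toNat +
        (Bool.xor (x (.inl (p, (π p).symm (e, r, 3)))) (a p (var p e))).toNat) ≤
      1000 * (∑ e, ∑ r, cutU (fun m => x (.inl (p, e, r, m)))
        (fun m => x (.inl (p, (π p).symm (e, r, m)))) + R * ∑ v ∈ univ.image (var p),
          (2 * #{e | var p e = v ∧ satE var b a e = false} - #{e | var p e = v})) +
        8 * (Fintype.card E * R) := by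
    intro p
    have hm : ∀ e ∈ (univ : Finset E), var p e ∈ univ.image (var p) := fun e he =>
      mem_image_of_mem _ he
    rw [← sum_fiberwise_of_maps_to hm, ← sum_fiberwise_of_maps_to hm (f := fun e => ∑ r, cutU _ _),
      ← card_univ, card_eq_sum_card_fiberwise (f := var p) fun e he => hm e he, mul_sum, mul_sum,
      sum_mul, ← sum_add_distrib, mul_sum, mul_sum, ← sum_add_distrib]
    refine sum_le_sum fun v _ => ?_
    have h2 := hA p v {e | var p e = v ∧ satE var b a e = false}
      (fun e he => mem_filter.2 ⟨mem_univ _, (mem_filter.1 he).2.1⟩) (μ p) (by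
        rw [sum_congr rfl fun e he => show ∑ r, ends (fun m => μ p (π p (e, r, m)))
            (fun m => μ p (e, r, m)) = ∑ r, ((Bool.xor (τ p (π p (e, r, 3))) (a p v)).toNat +
              (Bool.xor (τ p (e, r, 3)) (a p v)).toNat) by
            simp only [hμ, ends, hπ, (mem_filter.1 he).2]]
        by_cases h : #{e | var p e = v} * R <
            ∑ e with var p e = v, ∑ r, ((τ p (π p (e, r, 3))).toNat + (τ p (e, r, 3)).toNat)
        · rw [show a p v = true from decide_eq_true h]
          have : ∑ e with var p e = v, ∑ r, ((Bool.xor (τ p (π p (e, r, 3))) true).toNat +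
              (Bool.xor (τ p (e, r, 3)) true).toNat) +
              ∑ e with var p e = v, ∑ r, ((τ p (π p (e, r, 3))).toNat + (τ p (e, r, 3)).toNat) =
              2 * (#{e | var p e = v} * R) := by
            have n : ∀ u u' : Bool, (Bool.xor u true).toNat + (Bool.xor u' true).toNat +
                (u.toNat + u'.toNat) = 2 := by decide
            simp only [← sum_add_distrib, n, sum_const, card_univ, Fintype.card_fin, smul_eq_mul]
            ring
          omega
        · rw [show a p v = false from decide_eq_false h]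
          simp only [Bool.xor_false]
          omega)
    refine le_trans (le_of_eq ?_) (h2.trans (le_of_eq ?_))
    · rw [← filter_filter, sum_filter (s := filter _ _)]
      refine congrArg _ (sum_congr rfl fun e _ => ?_)
      simp only [ends, hμπ]
      cases satE var b a e <;> simp [hμ, hτ]
    · have d : ∀ u v w : Bool, dd (Bool.xor u w) (Bool.xor v w) = dd u v := by decide
      simp only [cutU, cutP, hμπ]
      simp only [hμ, hτ, d]
  have h2 := sum_le_sum fun p (_ : p ∈ univ) => h1 p
  have h3 := sum_le_sum fun p (_ : p ∈ univ) => hub_sum b x p (π := π)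
  have h4 := sum_le_sum fun e (_ : e ∈ univ) => sum_le_sum fun r (_ : r ∈ univ) =>
    eqn_sum' b x a e r (π := π) (var := var)
  have h5 := sum_le_sum fun p (_ : p ∈ univ) => excess_le b var hv a p
  have h6 := hv a
  have h7 : ∑ e, (!satE var b a e).toNat + ∑ e, (satE var b a e).toNat = Fintype.card E := by
    rw [← sum_add_distrib, ← card_univ, card_eq_sum_ones]
    exact sum_congr rfl fun e _ => by cases satE var b a e <;> rfl
  have h8 : 118000 * (Fintype.card E * R) + 1900 * (R * ∑ e, (!satE var b a e).toNat) ≤
      2000 * (net b fun p => π p).cost x + 24 * (Fintype.card E * R) +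
        1000 * (R * ∑ p, ∑ v ∈ univ.image (var p),
          (2 * #{e | var p e = v ∧ satE var b a e = false} - #{e | var p e = v})) := by
    rw [cost_net]
    simp only [Fin.sum_univ_three, sum_add_distrib, mul_add, ← mul_sum, sum_const, card_univ,
      Fintype.card_fin, smul_eq_mul] at h2 h3 h4 ⊢
    linarith
  rw [← Nat.cast_sum, sum_const, card_univ, Fintype.card_fin, nsmul_eq_mul] at h5
  generalize ∑ p, ∑ v ∈ univ.image (var p),
    (2 * #{e | var p e = v ∧ satE var b a e = false} - #{e | var p e = v}) = X at h5 h8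
  generalize ∑ e, (!satE var b a e).toNat = V at h7 h8
  generalize ∑ e, (satE var b a e).toNat = W at h6 h7
  have h9 := (Nat.cast_le (α := ℝ)).2 h8
  have h10 := congrArg (Nat.cast : ℕ → ℝ) h7
  push_cast at h5 h9 h10
  have hR : (0 : ℝ) ≤ R := Nat.cast_nonneg R
  have h11 := mul_le_mul_of_nonneg_left h5 hR
  have h12 := mul_le_mul_of_nonneg_left (show (1 / 2 - ε) * Fintype.card E ≤ (V : ℝ) by linarith) hR
  linarith

end Vale.Agent.N333.K4
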