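import Vale.Agent.N333.Net4
import Vale.Agent.Lib.PCP.PrepCloud

/-!
Amplifiers on all colour classes at once, computable in polynomial time.
-/

namespace Vale.Agent.N333.K4

open Finset Vale.Agent.Lib.PCP Vale.Agent.Lib.PolyTime

variable {R : ℕ}

theorem AmpOn.map {E E' : Type} (f : E' ↪ E) {π' : Slot E' R → Slot E' R}
    {π : Slot E R → Slot E R} (h : ∀ j, π (f j.1, j.2) = (f (π' j).1, (π' j).2)) {C : Finset E'}
    (hC : AmpOn π' C) : AmpOn π (C.map f) := by
  intro U hU τ hτ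
  obtain ⟨U', hU', rfl⟩ := subset_map_iff.1 hU
  have h' : ∀ e r m, π (f e, r, m) = (f (π' (e, r, m)).1, (π' (e, r, m)).2) := fun e r m =>
    h (e, r, m)
  have := hC U' hU' (fun j => τ (f j.1, j.2)) (by simpa only [sum_map, card_map, h'] using hτ)
  simpa only [sum_map, card_map, h'] using this

variable (D : ℕ) (πs : ∀ n, Equiv.Perm (Slot (Fin n) R))

/-- The given permutations for at most `D` types, the identity otherwise. -/
def loc (n : ℕ) : Equiv.Perm (Slot (Fin n) R) := if n ≤ D then πs n else 1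

/-- The table of the permutations. -/
def tab (n : ℕ) (j : Slot ℕ R) : Slot ℕ R :=
  if h : j.1 < n then ((loc D πs n (⟨j.1, h⟩, j.2)).1, (loc D πs n (⟨j.1, h⟩, j.2)).2) else j

theorem PT_tab : PT ∅ fun q : ℕ × Slot ℕ R => tab D πs q.1 q.2 := by
  have h1 : PT ∅ fun q : ℕ × Slot ℕ R =>
      tab D πs (Fin.ofNat (D + 1) q.1) (Fin.ofNat (D + 1) q.2.1, q.2.2) :=
    PT.finComp (fun a : Fin (D + 1) × Fin (D + 1) × Fin R × Fin 4 => tab D πs a.1 (a.2.1, a.2.2))
      ((PT.finOfNat PT.fst').pair ((PT.finOfNat PT.snd'.fst).pair PT.snd'.snd))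
  refine (PT.ite (p := fun q : ℕ × Slot ℕ R => q.1 ≤ D ∧ q.2.1 < q.1)
    (PT.decide_and (PT.fst'.le (PT.const D)) (PT.snd'.fst.lt PT.fst')) h1 PT.snd').congr
    fun q => ?_
  split_ifs with h
  · rw [Fin.val_ofNat, Fin.val_ofNat, Nat.mod_eq_of_lt (by omega), Nat.mod_eq_of_lt (by omega)]
  · unfold tab
    split_ifs with h2
    · rw [loc, if_neg fun h3 => h ⟨h3, h2⟩]
      rfl
    · rfl

/-- The permutation of the slots over `range m` which acts on each colour class by the table. -/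
def glob (m : ℕ) (w : ℕ → ℕ) (j : Slot ℕ R) : Slot ℕ R :=
  ((cloud m w (w j.1)).getD
    (tab D πs (cloud m w (w j.1)).length ((cloud m w (w j.1)).idxOf j.1, j.2)).1 0,
    (tab D πs (cloud m w (w j.1)).length ((cloud m w (w j.1)).idxOf j.1, j.2)).2)

theorem PT_glob {α : Type} [Enc α] {m : α → ℕ} {w : α → ℕ → ℕ} {j : α → Slot ℕ R} (hm : PT ∅ m)
    (hb : PBd m) (hw : PT ∅ fun p : α × ℕ => w p.1 p.2) (hj : PT ∅ j) :
    PT ∅ fun a => glob D πs (m a) (w a) (j a) := by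
  have hc : PT ∅ fun a => cloud (m a) (w a) (w a (j a).1) :=
    PT_cloud hm hb hw (hw.comp (PT.id.pair hj.fst))
  have ht := (PT_tab D πs).comp (hc.length.pair ((PT.idxOf hc hj.fst).pair hj.snd))
  exact (PT.getD hc ht.fst (PT.const 0)).pair ht.snd

/-- The enumeration of a colour class. -/
def emb (m : ℕ) (w : ℕ → ℕ) (v : ℕ) : Fin (cloud m w v).length ↪ Fin m where
  toFun i := ⟨(cloud m w v).getD i 0, (mem_cloud.1 (getD_mem_cloud i.2)).1⟩
  inj' i i' h := Fin.ext (by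
    have := congrArg (fun x : Fin m => (cloud m w v).idxOf x.1) h
    simpa only [idxOf_getD_cloud i.2, idxOf_getD_cloud i'.2] using this)

theorem w_emb (m : ℕ) (w : ℕ → ℕ) (v : ℕ) (i : Fin (cloud m w v).length) :
    w (emb m w v i) = v := (mem_cloud.1 (getD_mem_cloud i.2)).2

theorem exists_emb {m : ℕ} {w : ℕ → ℕ} {v : ℕ} (e : Fin m) (h : w e = v) :
    ∃ i, emb m w v i = e :=
  ⟨⟨_, List.idxOf_lt_length_iff.2 (mem_cloud.2 ⟨e.2, h⟩)⟩,
    Fin.ext (getD_idxOf_cloud (mem_cloud.2 ⟨e.2, h⟩))⟩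

theorem glob_emb (m : ℕ) (w : ℕ → ℕ) (v : ℕ) (j : Slot (Fin (cloud m w v).length) R) :
    glob D πs m w (emb m w v j.1, j.2) =
      ((emb m w v (loc D πs _ j).1 : ℕ), (loc D πs _ j).2) := by
  have h1 := w_emb m w v j.1
  have h2 : (cloud m w v).idxOf (emb m w v j.1 : ℕ) = j.1 := idxOf_getD_cloud j.1.2
  simp only [glob, h1, h2]
  rw [tab, dif_pos j.1.2]
  rfl

theorem exists_glob (hπ : ∀ n, AmpOn (πs n) univ) (m : ℕ) (w : ℕ → ℕ) :
    ∃ π : Equiv.Perm (Slot (Fin m) R),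
      (∀ j, glob D πs m w (j.1, j.2) = (((π j).1 : ℕ), (π j).2)) ∧ (∀ j, w (π j).1 = w j.1) ∧
      ∀ v, (cloud m w v).length ≤ D → AmpOn π {e | w e = v} := by
  have h0 : ∀ j : Slot (Fin m) R, (glob D πs m w (j.1, j.2)).1 < m := by
    rintro ⟨e, s⟩
    obtain ⟨i, hi⟩ := exists_emb e (rfl : w e = w e)
    have := glob_emb D πs m w _ (i, s)
    rw [hi] at this
    rw [this]
    exact Fin.is_lt _
  let g : Slot (Fin m) R → Slot (Fin m) R := fun j =>
    (⟨_, h0 j⟩, (glob D πs m w (j.1, j.2)).2)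
  have h1 : ∀ v (j : Slot (Fin (cloud m w v).length) R), g (emb m w v j.1, j.2) =
      (emb m w v (loc D πs _ j).1, (loc D πs _ j).2) := fun v j =>
    Prod.ext (Fin.ext (Prod.ext_iff.1 (glob_emb D πs m w v j)).1)
      (Prod.ext_iff.1 (glob_emb D πs m w v j)).2
  have h2 : ∀ j, w (g j).1 = w j.1 := by
    rintro ⟨e, s⟩
    obtain ⟨i, hi⟩ := exists_emb e (rfl : w e = w e)
    have := h1 _ (i, s)
    rw [hi] at this
    rw [this]
    exact w_emb m w _ _
  have h3 : Function.Injective g := by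
    rintro ⟨e, s⟩ ⟨e', s'⟩ h
    have h4 : w e' = w e := by rw [← h2 (e', s'), ← h, h2]
    obtain ⟨i, hi⟩ := exists_emb e (rfl : w e = w e)
    obtain ⟨i', hi'⟩ := exists_emb e' h4
    have a1 := h1 _ (i, s)
    have a2 := h1 _ (i', s')
    rw [hi] at a1
    rw [hi', ← h, a1] at a2
    have a3 : (i, s) = (i', s') := (loc D πs _).injective
      (Prod.ext ((emb m w _).injective (Prod.mk.inj a2).1) (Prod.mk.inj a2).2)
    obtain ⟨rfl, rfl⟩ := Prod.mk.inj a3
    rw [← hi', hi]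
  refine ⟨Equiv.ofBijective g (Finite.injective_iff_bijective.1 h3), fun j => rfl, h2,
    fun v hv => ?_⟩
  have h4 : ({e | w e = v} : Finset (Fin m)) = univ.map (emb m w v) := by
    ext e
    simp only [mem_filter, mem_univ, true_and, mem_map]
    exact ⟨exists_emb e, by rintro ⟨i, rfl⟩; exact w_emb m w v i⟩
  rw [h4]
  refine AmpOn.map (emb m w v) (π' := loc D πs _) (h1 v) ?_
  rw [loc, if_pos hv]
  exact hπ _

end Vale.Agent.N333.K4
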