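import Vale.Agent.N333.Sys
import Vale.Agent.N333.AmpDefs4

/-!
The system of switches attached to a system of linear equations, units on eight slots.
-/

namespace Vale.Agent.N333.K4

open Finset

/-- Slots: an equation, a replica, a position on a half path. -/
abbrev Slot (E : Type) (R : ℕ) : Type := E × Fin R × Fin 4

/-- Letters: hubs of the full switches (named by right slots), two hubs for each equation. -/
abbrev Let (E : Type) (R : ℕ) : Type := (Fin 3 × Slot E R) ⊕ (E × Fin R × Bool)

/-- Switches: full ones (named by left slots), wires, auxiliary ones. -/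
abbrev Node (E : Type) (R : ℕ) : Type :=
  (Fin 3 × Slot E R) ⊕ ((Fin 3 × E × Fin R) ⊕ (E × Fin R × Bool))

/-- The hub which is fed by the right end of a unit. -/
def fl (p : Fin 3) : Bool := decide (p = 2)

variable {E : Type} {R : ℕ}

/-- The letter after a right slot. -/
def nxR (p : Fin 3) (j : Slot E R) : Let E R :=
  if j.2.2 = 3 then .inr (j.1, j.2.1, fl p) else .inl (p, j.1, j.2.1, j.2.2 + 1)

/-- The letter after a left slot. -/
def nxL (π : Fin 3 → Slot E R → Slot E R) (p : Fin 3) (j : Slot E R) : Let E R :=
  if j.2.2 = 3 then .inr (j.1, j.2.1, !fl p) else .inl (p, π p (j.1, j.2.1, j.2.2 + 1))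

/-- The system of switches. -/
def net (b : E → Bool) (π : Fin 3 → Slot E R → Slot E R) : Sys (Let E R) (Node E R) (E × Fin R) where
  a i := match i with
    | .inl q => some (nxR q.1 (π q.1 q.2))
    | .inr (.inl q) => some (.inl (q.1, q.2.1, q.2.2, 0))
    | .inr (.inr _) => none
  b i := match i with
    | .inl q => some (.inl (q.1, π q.1 q.2))
    | .inr (.inl _) => none
    | .inr (.inr q) => some (.inr q)
  c i := match i with
    | .inl q => some (nxL π q.1 q.2)
    | .inr (.inl q) => some (.inl (q.1, π q.1 (q.2.1, q.2.2, 0)))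
    | .inr (.inr _) => none
  u q := if b q.1 then none else some (.inr (q.1, q.2, true))
  v q := if b q.1 then some (.inr (q.1, q.2, false)) else none

variable (b : E → Bool) (π : Fin 3 → Equiv.Perm (Slot E R))

/-- The switch before a right slot. -/
def preR (p : Fin 3) (j : Slot E R) : Node E R :=
  if j.2.2 = 0 then .inr (.inl (p, j.1, j.2.1)) else .inl (p, (π p).symm (j.1, j.2.1, j.2.2 - 1))

/-- The switch before a left slot. -/
def preL (p : Fin 3) (j : Slot E R) : Node E R :=
  if j.2.2 = 0 then .inr (.inl (p, j.1, j.2.1)) else .inl (p, j.1, j.2.1, j.2.2 - 1)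

theorem fin4 (m m' : Fin 4) : (m ≠ 3 ∧ m + 1 = m') ↔ (m' ≠ 0 ∧ m = m' - 1) := by
  revert m m'
  decide

theorem a_hub (p : Fin 3) (j : Slot E R) (i : Node E R) :
    (net b fun p => π p).a i = some (.inl (p, j)) ↔ i = preR π p j := by
  obtain ⟨e, r, m⟩ := j
  rcases i with ⟨p', j'⟩ | ⟨p', e', r'⟩ | q
  · obtain ⟨⟨e', r', m'⟩, rfl⟩ := (π p').symm.surjective j'
    have := fin4 m' m
    simp only [net, nxR, preR, Equiv.apply_symm_apply, Option.some.injEq]
    split_ifs with h1 h2 h2
    · simp
    · simp only [Sum.inl.injEq, Prod.mk.injEq, false_iff, not_and]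
      rintro rfl
      simp only [EmbeddingLike.apply_eq_iff_eq, Prod.mk.injEq]
      tauto
    · simp only [Sum.inl.injEq, Prod.mk.injEq, iff_false]
      tauto
    · simp only [Sum.inl.injEq, Prod.mk.injEq]
      refine and_congr_right ?_
      rintro rfl
      simp only [EmbeddingLike.apply_eq_iff_eq, Prod.mk.injEq]
      tauto
  · simp only [net, preR]
    split_ifs with h1
    · simp [h1]
    · simp [Ne.symm h1]
  · simp only [net, preR]
    split_ifs <;> simp

theorem c_hub (p : Fin 3) (j : Slot E R) (i : Node E R) :
    (net b fun p => π p).c i = some (.inl (p, π p j)) ↔ i = preL p j := by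
  obtain ⟨e, r, m⟩ := j
  rcases i with ⟨p', e', r', m'⟩ | ⟨p', e', r'⟩ | q
  · have := fin4 m' m
    simp only [net, nxL, preL, Option.some.injEq]
    split_ifs with h1 h2 h2
    · simp
    · simp only [Sum.inl.injEq, Prod.mk.injEq, false_iff]
      tauto
    · simp only [Sum.inl.injEq, Prod.mk.injEq, iff_false, not_and]
      rintro rfl
      simp only [EmbeddingLike.apply_eq_iff_eq, Prod.mk.injEq]
      tauto
    · simp only [Sum.inl.injEq, Prod.mk.injEq]
      refine and_congr_right ?_
      rintro rfl
      simp only [EmbeddingLike.apply_eq_iff_eq, Prod.mk.injEq]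
      tauto
  · simp only [net, preL, Option.some.injEq, Sum.inl.injEq, Prod.mk.injEq]
    split_ifs with h1
    · simp only [Sum.inl.injEq, Sum.inr.injEq, Prod.mk.injEq]
      refine and_congr_right ?_
      rintro rfl
      simp [h1]
    · simp only [iff_false, not_and]
      rintro rfl
      simp [Ne.symm h1]
  · simp only [net, preL]
    split_ifs <;> simp

theorem b_hub (p : Fin 3) (j : Slot E R) (i : Node E R) :
    (net b fun p => π p).b i = some (.inl (p, π p j)) ↔ i = .inl (p, j) := by
  rcases i with ⟨p', j'⟩ | q | q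
  · simp only [net, Option.some.injEq, Sum.inl.injEq, Prod.mk.injEq]
    refine and_congr_right ?_
    rintro rfl
    simp
  · simp [net]
  · simp [net]

theorem b_eqn (q : E × Fin R × Bool) (i : Node E R) :
    (net b fun p => π p).b i = some (.inr q) ↔ i = .inr (.inr q) := by
  rcases i with q' | q' | q' <;> simp [net]

variable [Fintype E] [DecidableEq E]

theorem a_eqn (e : E) (r : Fin R) (h : Bool) (f : Node E R → ℕ) :
    ∑ i, (if (net b fun p => π p).a i = some (.inr (e, r, h)) then f i else 0) =
      ∑ p, if fl p = h then f (.inl (p, (π p).symm (e, r, 3))) else 0 := by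
  simp only [Fintype.sum_sum_type, net, reduceCtorEq, Option.some.injEq, if_false, sum_const_zero,
    add_zero]
  rw [Fintype.sum_prod_type]
  refine sum_congr rfl fun p _ => ?_
  have h1 : ∀ j, nxR p (π p j) = .inr (e, r, h) ↔ fl p = h ∧ j = (π p).symm (e, r, 3) := by
    intro j
    obtain ⟨⟨e', r', m'⟩, rfl⟩ := (π p).symm.surjective j
    simp only [nxR, Equiv.apply_symm_apply, EmbeddingLike.apply_eq_iff_eq, Prod.mk.injEq]
    split_ifs with h1
    · simp only [Sum.inr.injEq, Prod.mk.injEq]
      tauto
    · simp [h1]
  simp only [h1]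
  by_cases h2 : fl p = h <;> simp [h2]

theorem c_eqn (e : E) (r : Fin R) (h : Bool) (f : Node E R → ℕ) :
    ∑ i, (if (net b fun p => π p).c i = some (.inr (e, r, h)) then f i else 0) =
      ∑ p, if (!fl p) = h then f (.inl (p, e, r, 3)) else 0 := by
  simp only [Fintype.sum_sum_type, net, reduceCtorEq, Option.some.injEq, if_false, sum_const_zero,
    add_zero]
  rw [Fintype.sum_prod_type]
  refine sum_congr rfl fun p _ => ?_
  have h1 : ∀ j, nxL (fun p => π p) p j = .inr (e, r, h) ↔ (!fl p) = h ∧ j = (e, r, 3) := by
    rintro ⟨e', r', m'⟩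
    simp only [nxL, Prod.mk.injEq]
    split_ifs with h1
    · simp only [Sum.inr.injEq, Prod.mk.injEq]
      tauto
    · simp [h1]
  simp only [h1]
  by_cases h2 : (!fl p) = h
  · simp only [h2, true_and, sum_ite_eq', mem_univ, if_true]
  · simp only [h2, false_and, if_false, sum_const_zero]

/-- Number of arcs which start at a letter. -/
def outN (x : Node E R → Bool) (l : Let E R) : ℕ :=
  ∑ ω, if (net b fun p => π p).st x ω = some l then 1 else 0

/-- Number of arcs which end at a letter. -/
def inN (x : Node E R → Bool) (l : Let E R) : ℕ :=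
  ∑ ω, if (net b fun p => π p).en x ω = some l then 1 else 0

theorem outN_eq (x : Node E R → Bool) (l : Let E R) : outN b π x l =
    ∑ i, (if (net b fun p => π p).a i = some l then (x i).toNat else 0) +
      ∑ i, (if (net b fun p => π p).b i = some l then (!x i).toNat else 0) +
      ∑ j, if (net b fun p => π p).u j = some l then 1 else 0 := by
  rw [outN, Fintype.sum_sum_type, ← sum_add_distrib]
  refine congrArg₂ _ (sum_congr rfl fun i _ => ?_) rfl
  cases h : x i <;> simp [Sys.st, h]

theorem inN_eq (x : Node E R → Bool) (l : Let E R) : inN b π x l =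
    ∑ i, (if (net b fun p => π p).b i = some l then (x i).toNat else 0) +
      ∑ i, (if (net b fun p => π p).c i = some l then (!x i).toNat else 0) +
      ∑ j, if (net b fun p => π p).v j = some l then 1 else 0 := by
  rw [inN, Fintype.sum_sum_type, ← sum_add_distrib]
  refine congrArg₂ _ (sum_congr rfl fun i _ => ?_) rfl
  cases h : x i <;> simp [Sys.en, h]

theorem outN_hub (x : Node E R → Bool) (p : Fin 3) (j : Slot E R) :
    outN b π x (.inl (p, π p j)) = (x (preR π p (π p j))).toNat + (!x (.inl (p, j))).toNat := by
  have h : ∀ q, (net b fun p => π p).u q ≠ some (.inl (p, π p j)) := fun q => by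
    simp only [net]
    split_ifs <;> simp
  simp only [outN_eq, a_hub, b_hub, h, sum_ite_eq', mem_univ, if_true, if_false, sum_const_zero,
    add_zero]

theorem inN_hub (x : Node E R → Bool) (p : Fin 3) (j : Slot E R) :
    inN b π x (.inl (p, π p j)) = (x (.inl (p, j))).toNat + (!x (preL p j)).toNat := by
  have h : ∀ q, (net b fun p => π p).v q ≠ some (.inl (p, π p j)) := fun q => by
    simp only [net]
    split_ifs <;> simp
  simp only [inN_eq, c_hub, b_hub, h, sum_ite_eq', mem_univ, if_true, if_false, sum_const_zero,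
    add_zero]

theorem outN_eqn (x : Node E R → Bool) (e : E) (r : Fin R) (h : Bool) :
    outN b π x (.inr (e, r, h)) =
      (∑ p, if fl p = h then (x (.inl (p, (π p).symm (e, r, 3)))).toNat else 0) +
        (!x (.inr (.inr (e, r, h)))).toNat + (h && !b e).toNat := by
  have h1 : ∀ q, (net b fun p => π p).u q = some (.inr (e, r, h)) ↔
      (h && !b e) = true ∧ q = (e, r) := by
    rintro ⟨e', r'⟩
    simp only [net]
    split_ifs with h2
    · simp only [Prod.mk.injEq, false_iff, not_and]
      rintro h3 rfl
      simp [h2] at h3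
    · simp only [Option.some.injEq, Sum.inr.injEq, Prod.mk.injEq]
      constructor
      · rintro ⟨rfl, rfl, rfl⟩
        simp [h2]
      · rintro ⟨h3, rfl, rfl⟩
        simp only [Bool.and_eq_true] at h3
        simp [h3.1]
  simp only [outN_eq, a_eqn, b_eqn, h1, sum_ite_eq', mem_univ, if_true]
  cases (h && !b e) <;> simp

theorem inN_eqn (x : Node E R → Bool) (e : E) (r : Fin R) (h : Bool) :
    inN b π x (.inr (e, r, h)) = (x (.inr (.inr (e, r, h)))).toNat +
      (∑ p, if (!fl p) = h then (!x (.inl (p, e, r, 3))).toNat else 0) + (!h && b e).toNat := by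
  have h1 : ∀ q, (net b fun p => π p).v q = some (.inr (e, r, h)) ↔
      (!h && b e) = true ∧ q = (e, r) := by
    rintro ⟨e', r'⟩
    simp only [net]
    split_ifs with h2
    · simp only [Option.some.injEq, Sum.inr.injEq, Prod.mk.injEq]
      constructor
      · rintro ⟨rfl, rfl, rfl⟩
        simp [h2]
      · rintro ⟨h3, rfl, rfl⟩
        cases h
        · simp
        · simp at h3
    · simp only [Prod.mk.injEq, false_iff, not_and]
      rintro h3 rfl
      simp [h2] at h3
  simp only [inN_eq, c_eqn, b_eqn, h1, sum_ite_eq', mem_univ, if_true]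
  cases (!h && b e) <;> simp

/-- The cost, letter by letter. -/
theorem cost_net (x : Node E R → Bool) : (net b fun p => π p).cost x =
    44 * (Fintype.card E * R) +
      (∑ p, ∑ j, max (outN b π x (.inl (p, π p j))) (inN b π x (.inl (p, π p j))) +
        ∑ e, ∑ r, (max (outN b π x (.inr (e, r, true))) (inN b π x (.inr (e, r, true))) +
          max (outN b π x (.inr (e, r, false))) (inN b π x (.inr (e, r, false))))) := by
  rw [Sys.cost]
  refine congrArg₂ _ ?_ ?_
  · simp [Fintype.sum_sum_type, net, wt]
    ring
  · change ∑ l, max (outN b π x l) (inN b π x l) = _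
    rw [Fintype.sum_sum_type, Fintype.sum_prod_type]
    refine congrArg₂ _ (sum_congr rfl fun p _ => ?_) ?_
    · exact (Equiv.sum_comp (π p) fun j =>
        max (outN b π x (.inl (p, j))) (inN b π x (.inl (p, j)))).symm
    · simp only [Fintype.sum_prod_type, Fintype.sum_bool]

end Vale.Agent.N333.K4
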