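import Vale.Agent.Lib.PCP.Basic

/-!
Linear equations in three variables from three different layers, with bounded occurrences.
-/

namespace Vale.Agent.N333

open Vale.Agent.Lib.PCP

/-- The variable in position `p`. -/
def varAt (p : Fin 3) (c : Eq3 ℕ) : ℕ := ![c.1, c.2.1, c.2.2.1] p

/-- Satisfaction by three independent assignments, one for each position. -/
def sat3 (c : Eq3 ℕ) (a : Fin 3 → ℕ → Bool) : Bool :=
  Bool.xor (Bool.xor (a 0 c.1) (a 1 c.2.1)) (a 2 c.2.2.1) == c.2.2.2

/-- The gap problem, with at most `D` occurrences of each variable in the no instances. -/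
def Lin3B (D : ℕ) (ε : ℝ) : Promise (List (Eq3 ℕ)) where
  yes l := l ≠ [] ∧ ∃ a, (1 - ε) * l.length ≤ (cnt sat3 l a : ℝ)
  no l := l ≠ [] ∧ (∀ p v, (l.countP fun c => decide (varAt p c = v)) ≤ D) ∧
    ∀ a, (cnt sat3 l a : ℝ) ≤ (1 / 2 + ε) * l.length

end Vale.Agent.N333
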