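import Vale.Agent.N333.Core4
import Vale.Agent.N333.Glob4
import Vale.Agent.N333.SrcDefs

/-!
The reduction from linear equations to the shortest common superstring problem.
-/

namespace Vale.Agent.N333.K4

open Finset Vale.Agent.Lib.PCP Vale.Agent.Lib.PolyTime Vale.Agent.P333

variable {R : ℕ}

/-- Switches which belong to one equation. -/
abbrev Loc (R : ℕ) : Type := (Fin 3 × Fin R × Fin 4) ⊕ ((Fin 3 × Fin R) ⊕ (Fin R × Bool))

/-- The switch of an equation with a given local index. -/
def mkNode {E : Type} (e : E) : Loc R → Node E R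
  | .inl q => .inl (q.1, e, q.2)
  | .inr (.inl q) => .inr (.inl (q.1, e, q.2))
  | .inr (.inr q) => .inr (.inr (e, q))

theorem exists_mkNode {E : Type} (i : Node E R) : ∃ e t, i = mkNode e t := by
  rcases i with ⟨p, e, s⟩ | ⟨p, e, r⟩ | ⟨e, s⟩
  exacts [⟨e, .inl (p, s), rfl⟩, ⟨e, .inr (.inl (p, r)), rfl⟩, ⟨e, .inr (.inr s), rfl⟩]

/-- Letters over `Fin m` as letters over the natural numbers. -/
def valL {m : ℕ} : Let (Fin m) R → Let ℕ R :=
  Sum.map (Prod.map id (Prod.map Fin.val id)) (Prod.map Fin.val id)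

/-- Switches over `Fin m` as switches over the natural numbers. -/
def valN {m : ℕ} : Node (Fin m) R → Node ℕ R :=
  Sum.map (Prod.map id (Prod.map Fin.val id))
    (Sum.map (Prod.map id (Prod.map Fin.val id)) (Prod.map Fin.val id))

/-- Symbols. -/
abbrev Sym (E : Type) (R : ℕ) : Type := (Let E R × ℕ) ⊕ ((Node E R × Fin 3) ⊕ (E × Fin R))

/-- Symbols over `Fin m` as symbols over the natural numbers. -/
def valS {m : ℕ} : Sym (Fin m) R → Sym ℕ R :=
  Sum.map (Prod.map valL id) (Sum.map (Prod.map valN id) (Prod.map Fin.val id))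

theorem valS_injective {m : ℕ} : Function.Injective (valS : Sym (Fin m) R → Sym ℕ R) := by
  have i : ∀ {α : Type}, Function.Injective (id : α → α) := fun {_} => Function.injective_id
  have v : Function.Injective (Fin.val : Fin m → ℕ) := Fin.val_injective
  exact (((i.prodMap (v.prodMap i)).sumMap (v.prodMap i)).prodMap i).sumMap
    ((((i.prodMap (v.prodMap i)).sumMap ((i.prodMap (v.prodMap i)).sumMap
      (v.prodMap i))).prodMap i).sumMap (v.prodMap i))

theorem valN_mkNode {m : ℕ} (e : Fin m) (t : Loc R) : valN (mkNode e t) = mkNode (e : ℕ) t := by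
  rcases t with q | q | q <;> rfl

theorem blk_map {m : ℕ} (K : ℕ) (sy : Sym ℕ R → ℕ) (o : Option (Let (Fin m) R)) :
    blk K sy (o.map valL) = blk K (fun s => sy (valS s)) o := by
  cases o <;> rfl

section MapNet

variable {m : ℕ} {b : ℕ → Bool} {G : Fin 3 → Slot ℕ R → Slot ℕ R}
  {π : Fin 3 → Slot (Fin m) R → Slot (Fin m) R}
  (h : ∀ p j, G p (j.1, j.2) = (((π p j).1 : ℕ), (π p j).2))

include h

theorem net_a (i : Node (Fin m) R) :
    (net b G).a (valN i) = ((net (fun e : Fin m => b e) π).a i).map valL := by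
  rcases i with ⟨p, e, s⟩ | q | q
  · have := h p (e, s)
    simp only [net, valN, Sum.map_inl, Prod.map, id, Option.map_some] at this ⊢
    rw [this]
    unfold nxR
    split_ifs <;> rfl
  · rfl
  · rfl

theorem net_b (i : Node (Fin m) R) :
    (net b G).b (valN i) = ((net (fun e : Fin m => b e) π).b i).map valL := by
  rcases i with ⟨p, e, s⟩ | q | q
  · have := h p (e, s)
    simp only [net, valN, Sum.map_inl, Prod.map, id, Option.map_some] at this ⊢
    rw [this]
    rfl
  · rfl
  · rfl

theorem net_c (i : Node (Fin m) R) :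
    (net b G).c (valN i) = ((net (fun e : Fin m => b e) π).c i).map valL := by
  rcases i with ⟨p, e, r, s⟩ | ⟨p, e, r⟩ | q
  · have := h p (e, r, s + 1)
    simp only [net, valN, Sum.map_inl, Prod.map, id, Option.map_some, nxL] at this ⊢
    rw [this]
    split_ifs <;> rfl
  · have := h p (e, r, 0)
    simp only [net, valN, Sum.map_inl, Sum.map_inr, Prod.map, id, Option.map_some] at this ⊢
    rw [this]
    rfl
  · rfl

omit h in
theorem net_u (e : Fin m) (r : Fin R) :
    (net b G).u (e, r) = ((net (fun e : Fin m => b e) π).u (e, r)).map valL := by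
  simp only [net]
  split_ifs <;> rfl

omit h in
theorem net_v (e : Fin m) (r : Fin R) :
    (net b G).v (e, r) = ((net (fun e : Fin m => b e) π).v (e, r)).map valL := by
  simp only [net]
  split_ifs <;> rfl

end MapNet

variable (D K : ℕ) (πs : ∀ n, Equiv.Perm (Slot (Fin n) R))

/-- The equation with a given number. -/
def eqn (l : List (Eq3 ℕ)) (e : ℕ) : Eq3 ℕ := l.getD e (0, 0, 0, false)

/-- The network of a list of equations. -/
def netL (l : List (Eq3 ℕ)) : Sys (Let ℕ R) (Node ℕ R) (ℕ × Fin R) :=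
  net (fun e => (eqn l e).2.2.2) fun p => glob D πs l.length fun e => varAt p (eqn l e)

/-- The two strings of a switch. -/
noncomputable def strs (l : List (Eq3 ℕ)) (i : Node ℕ R) : List (List ℕ) :=
  [str1 K (name (V := Sym ℕ R)) (fun m => .inl (i, m)) ((netL D πs l).a i) ((netL D πs l).b i)
      ((netL D πs l).c i),
    str2 K (name (V := Sym ℕ R)) (fun m => .inl (i, m)) ((netL D πs l).a i) ((netL D πs l).b i)
      ((netL D πs l).c i)]

/-- The instance of the superstring problem. -/
noncomputable def inst (l : List (Eq3 ℕ)) : List (List ℕ) :=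
  (List.range l.length).flatMap fun e =>
    ((univ : Finset (Loc R)).toList.flatMap fun t => strs D K πs l (mkNode e t)) ++
      (univ : Finset (Fin R)).toList.map fun r => str0 K (name (V := Sym ℕ R)) (.inr (e, r))
        ((netL D πs l).u (e, r)) ((netL D πs l).v (e, r))

theorem isInst (l : List (Eq3 ℕ))
    {π : Fin 3 → Slot (Fin l.length) R → Slot (Fin l.length) R}
    (h : ∀ p j, glob D πs l.length (fun e => varAt p (eqn l e)) (j.1, j.2) =
      (((π p j).1 : ℕ), (π p j).2)) :
    (net (fun e : Fin l.length => (eqn l e).2.2.2) π).IsInst K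
      (fun s => name (valS s)) (inst D K πs l) := by
  have h1 : ∀ (e : Fin l.length) (t : Loc R) (s : List ℕ), s ∈ strs D K πs l (mkNode (e : ℕ) t) ↔
      s = str1 K (fun s => name (valS s)) (fun m => .inl (mkNode e t, m))
        ((net (fun e : Fin l.length => (eqn l e).2.2.2) π).a (mkNode e t))
        ((net (fun e : Fin l.length => (eqn l e).2.2.2) π).b (mkNode e t))
        ((net (fun e : Fin l.length => (eqn l e).2.2.2) π).c (mkNode e t)) ∨
      s = str2 K (fun s => name (valS s)) (fun m => .inl (mkNode e t, m))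
        ((net (fun e : Fin l.length => (eqn l e).2.2.2) π).a (mkNode e t))
        ((net (fun e : Fin l.length => (eqn l e).2.2.2) π).b (mkNode e t))
        ((net (fun e : Fin l.length => (eqn l e).2.2.2) π).c (mkNode e t)) := by
    intro e t s
    rw [← valN_mkNode, strs, netL, net_a h, net_b h, net_c h]
    simp only [List.mem_cons, List.not_mem_nil, or_false, str1, str2, blk_map]
    rfl
  have h2 : ∀ (e : Fin l.length) (r : Fin R), str0 K (name (V := Sym ℕ R)) (.inr ((e : ℕ), r))
      ((netL D πs l).u (e, r)) ((netL D πs l).v (e, r)) =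
      str0 K (fun s => name (valS s)) (.inr (e, r))
        ((net (fun e : Fin l.length => (eqn l e).2.2.2) π).u (e, r))
        ((net (fun e : Fin l.length => (eqn l e).2.2.2) π).v (e, r)) := by
    intro e r
    rw [netL, net_u (π := π), net_v (π := π)]
    simp only [str0, blk_map]
    rfl
  intro s
  simp only [inst, List.mem_flatMap, List.mem_range, List.mem_append, List.mem_map, mem_toList,
    mem_univ, true_and]
  constructor
  · rintro ⟨e, he, ⟨t, ht⟩ | ⟨r, rfl⟩⟩
    · exact Or.inl ⟨_, (h1 ⟨e, he⟩ t s).1 ht⟩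
    · exact Or.inr ⟨_, h2 ⟨e, he⟩ r⟩
  · rintro (⟨i, hi⟩ | ⟨⟨e, r⟩, rfl⟩)
    · obtain ⟨e, t, rfl⟩ := exists_mkNode i
      exact ⟨e, e.2, Or.inl ⟨t, (h1 e t s).2 hi⟩⟩
    · exact ⟨e, e.2, Or.inr ⟨r, h2 e r⟩⟩

/-! ### Polynomial time -/

section PT

variable {α : Type} [Enc α]

theorem PT_blk {o : α → Option (Let ℕ R)} (ho : PT ∅ o) :
    PT ∅ fun a => blk K (name (V := Sym ℕ R)) (o a) :=
  (PT.optCase ho (PT.const []) (g := fun _ l => (List.range K).map fun j =>
    name (V := Sym ℕ R) (.inl (l, j))) (PT.mapConst _ fun j _ =>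
      PT.name (PT.inl (PT.snd'.pair (PT.const j))))).congr fun a => by cases o a <;> rfl

theorem PT_eqn {l : α → List (Eq3 ℕ)} {e : α → ℕ} (hl : PT ∅ l) (he : PT ∅ e) :
    PT ∅ fun a => eqn (l a) (e a) := PT.getD hl he (PT.const _)

theorem PT_varAt (p : Fin 3) {c : α → Eq3 ℕ} (hc : PT ∅ c) : PT ∅ fun a => varAt p (c a) := by
  fin_cases p
  exacts [hc.fst, hc.snd.fst, hc.snd.snd.fst]

theorem PT_G (p : Fin 3) {j : List (Eq3 ℕ) × ℕ → Slot ℕ R} (hj : PT ∅ j) :
    PT ∅ fun q : List (Eq3 ℕ) × ℕ => glob D πs q.1.length (fun e => varAt p (eqn q.1 e)) (j q) :=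
  PT_glob D πs (w := fun (q : List (Eq3 ℕ) × ℕ) e => varAt p (eqn q.1 e)) PT.fst'.length
    (PBd.length (A := ∅) PT.fst') (PT_varAt p (PT_eqn PT.fst'.fst PT.snd')) hj

theorem PT_nxR (p : Fin 3) {j : α → Slot ℕ R} (hj : PT ∅ j) : PT ∅ fun a => nxR p (j a) :=
  PT.ite (PT.eqConst hj.snd.snd 3) (PT.inr (hj.fst.pair (hj.snd.fst.pair (PT.const _))))
    (PT.inl ((PT.const p).pair (hj.fst.pair (hj.snd.fst.pair
      (PT.finComp (fun m : Fin 4 => m + 1) hj.snd.snd)))))

theorem PT_mkNode (t : Loc R) : PT ∅ fun q : List (Eq3 ℕ) × ℕ => mkNode q.2 t := by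
  rcases t with t | t | t
  · exact PT.inl ((PT.const _).pair (PT.snd'.pair (PT.const _)))
  · exact PT.inr (PT.inl ((PT.const _).pair (PT.snd'.pair (PT.const _))))
  · exact PT.inr (PT.inr (PT.snd'.pair (PT.const _)))

theorem PT_a (t : Loc R) :
    PT ∅ fun q : List (Eq3 ℕ) × ℕ => (netL D πs q.1).a (mkNode q.2 t) := by
  rcases t with t | t | t
  · exact PT.some (PT_nxR _ (PT_G D πs _ (PT.snd'.pair (PT.const _))))
  · exact PT.some (PT.inl ((PT.const _).pair (PT.snd'.pair (PT.const (t.2, 0)))))
  · exact PT.const none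

theorem PT_b (t : Loc R) :
    PT ∅ fun q : List (Eq3 ℕ) × ℕ => (netL D πs q.1).b (mkNode q.2 t) := by
  rcases t with t | t | t
  · exact PT.some (PT.inl ((PT.const _).pair (PT_G D πs _ (PT.snd'.pair (PT.const _)))))
  · exact PT.const none
  · exact PT.some (PT.inr (PT.snd'.pair (PT.const _)))

theorem PT_c (t : Loc R) :
    PT ∅ fun q : List (Eq3 ℕ) × ℕ => (netL D πs q.1).c (mkNode q.2 t) := by
  rcases t with t | t | t
  · exact PT.some (PT.ite (p := fun _ => t.2.2 = 3) (PT.const _)
      (PT.inr (PT.snd'.pair (PT.const (t.2.1, !fl t.1))))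
      (PT.inl ((PT.const _).pair (PT_G D πs _ (PT.snd'.pair (PT.const (t.2.1, t.2.2 + 1)))))))
  · exact PT.some (PT.inl ((PT.const _).pair (PT_G D πs _ (PT.snd'.pair (PT.const (t.2, 0))))))
  · exact PT.const none

theorem PT_inst : PT ∅ (inst D K πs) := by
  refine PT.flatMap (PT.range PT.id.length (PBd.length (A := ∅) PT.id))
    (PT.append (PT.flatMapConst _ fun t _ => ?_) (PT.mapConst _ fun r _ => ?_))
  · have ha := PT_blk K (PT_a D πs t)
    have hb := PT_blk K (PT_b D πs t)
    have hc := PT_blk K (PT_c D πs t)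
    have hz : ∀ m : Fin 3, PT ∅ fun q : List (Eq3 ℕ) × ℕ =>
        name (V := Sym ℕ R) (.inr (.inl (mkNode q.2 t, m))) := fun m =>
      PT.name (PT.inr (PT.inl ((PT_mkNode t).pair (PT.const m))))
    exact PT.cons (ha.append ((hz 0).cons (hb.append ((hz 1).cons hc))))
      (PT.cons (hb.append ((hz 1).cons (hc.append ((hz 2).cons (ha.append ((hz 0).cons hb))))))
        PT.nil)
  · have hb : PT ∅ fun q : List (Eq3 ℕ) × ℕ => decide ((eqn q.1 q.2).2.2.2 = true) :=
      (PT_eqn PT.fst' PT.snd').snd.snd.snd.congr fun q => by simp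
    have hu : PT ∅ fun q : List (Eq3 ℕ) × ℕ => (netL D πs q.1).u (q.2, r) :=
      PT.ite hb (PT.const none) (PT.some (PT.inr (PT.snd'.pair (PT.const (r, true)))))
    have hv : PT ∅ fun q : List (Eq3 ℕ) × ℕ => (netL D πs q.1).v (q.2, r) :=
      PT.ite hb (PT.some (PT.inr (PT.snd'.pair (PT.const (r, false))))) (PT.const none)
    have hz : PT ∅ fun q : List (Eq3 ℕ) × ℕ => name (V := Sym ℕ R) (.inr (.inr (q.2, r))) :=
      PT.name (PT.inr (PT.inr (PT.snd'.pair (PT.const r))))
    exact (PT_blk K hu).append (hz.cons (PT_blk K hv))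

end PT

/-! ### The gap -/

/-- The gap version of the shortest common superstring problem with ratio `129/128`. -/
def GapSCS : Promise (List (List ℕ) × ℕ) where
  yes x := opt x.1 ≤ x.2
  no x := 129 * x.2 < 128 * opt x.1

theorem cnt_sat3 (l : List (Eq3 ℕ)) (a : Fin 3 → ℕ → Bool) : cnt sat3 l a =
    ∑ e : Fin l.length, (satE (fun p (e : Fin l.length) => varAt p (eqn l e))
      (fun e => (eqn l e).2.2.2) a e).toNat := by
  have h : ∀ l : List (Eq3 ℕ), cnt sat3 l a = (l.map fun c => (sat3 c a).toNat).sum := by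
    intro l
    induction l with
    | nil => rfl
    | cons c l ih =>
      rw [cnt, List.countP_cons, List.map_cons, List.sum_cons, ← ih, add_comm]
      cases sat3 c a <;> rfl
  rw [h, sum_map_eq_sum_fin]
  refine sum_congr rfl fun e _ => ?_
  rw [show l[e] = eqn l e from (List.getD_eq_getElem _ _ e.2).symm]
  rfl

theorem length_cloud (l : List (Eq3 ℕ)) (p : Fin 3) (v : ℕ) :
    (cloud l.length (fun e => varAt p (eqn l e)) v).length =
      l.countP fun c => decide (varAt p c = v) := by
  have h : l = (List.range l.length).map (eqn l) := by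
    refine List.ext_getElem (by simp) fun i h1 h2 => ?_
    simp only [List.getElem_map, List.getElem_range, eqn]
    exact (List.getD_eq_getElem _ _ h1).symm
  rw [cloud, ← List.countP_eq_length_filter]
  conv_rhs => rw [h, List.countP_map]
  rfl

theorem red_scs (hA : AmpEx) (D : ℕ) : Red (Lin3B D (1 / 10000)) GapSCS := by
  obtain ⟨R, hR, hA⟩ := hA
  choose πs hπs using hA
  refine ⟨fun l => (inst D 100000 πs l, 5900079 * (l.length * R)),
    (PT_inst D _ πs).pair ((PT.const _).mul (PT.id.length.mul (PT.const R))), fun l hl => ?_,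
    fun l hl => ?_⟩
  · choose π h1 h2 _ using fun p => exists_glob D πs hπs l.length fun e => varAt p (eqn l e)
    obtain ⟨-, a, ha⟩ := hl
    set var : Fin 3 → Fin l.length → ℕ := fun p e => varAt p (eqn l e)
    set b : Fin l.length → Bool := fun e => (eqn l e).2.2.2
    have h3 := Sys.opt_le_cost (isInst D 100000 πs l h1) (honest var b a) (rank var π a)
      (rank_lt b h2 a)
    have h4 := cost_honest b h2 a (var := var)
    have h5 : ∑ e, (!satE var b a e).toNat + cnt sat3 l a = l.length := by
      rw [cnt_sat3, ← sum_add_distrib]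
      conv_rhs => rw [← Fintype.card_fin l.length, ← card_univ, card_eq_sum_ones]
      exact sum_congr rfl fun e _ => by
        change (!satE var b a e).toNat + (satE var b a e).toNat = 1
        cases satE var b a e <;> rfl
    have h6 : 10000 * ∑ e, (!satE var b a e).toNat ≤ l.length := by
      have h7 := congrArg (Nat.cast : ℕ → ℝ) h5
      rw [Nat.cast_add] at h7
      have : (10000 : ℝ) * (∑ e, (!satE var b a e).toNat : ℕ) ≤ l.length := by linarith
      exact_mod_cast this
    have h7 := Nat.mul_le_mul_left R h6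
    simp only [Fintype.card_sum, Fintype.card_prod, Fintype.card_fin, Fintype.card_bool] at h3 h4
    change opt _ ≤ 5900079 * (l.length * R)
    linarith
  · choose π h1 h2 h3 using fun p => exists_glob D πs hπs l.length fun e => varAt p (eqn l e)
    obtain ⟨h0, hD, ha⟩ := hl
    obtain ⟨x, hx⟩ := Sys.cost_le_opt (name_injective.comp valS_injective)
      (isInst D 100000 πs l h1)
    have h4 := le_cost (var := fun p (e : Fin l.length) => varAt p (eqn l e))
      (fun e => (eqn l e).2.2.2) h2 (fun p v => h3 p v (by rw [length_cloud]; exact hD p v))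
      (ε := 1 / 10000) (fun a => by rw [← cnt_sat3, Fintype.card_fin]; exact ha a) x
    have h5 := (Nat.cast_le (α := ℝ)).2 hx
    have h6 : (0 : ℝ) < l.length * R :=
      mul_pos (Nat.cast_pos.2 (List.length_pos_iff.2 h0)) (Nat.cast_pos.2 hR)
    rw [Fintype.card_fin] at h4
    have h7 : (129 : ℝ) * (5900079 * (l.length * R)) < 128 * opt (inst D 100000 πs l) := by
      push_cast at h5
      linarith
    change 129 * (5900079 * (l.length * R)) < 128 * opt _
    exact_mod_cast h7

end Vale.Agent.N333.K4
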