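import Vale.Agent.P333.Bridge

/-!
Superstrings of strings made of long blocks (letters) and private separators: a lower bound by
counting separators together with their contexts, an upper bound by merging.
-/

namespace Vale.Agent.N333

open Finset

section Generic

variable {Λ Z : Type} (K : ℕ) (sy : (Λ × ℕ) ⊕ Z → ℕ)

/-- The block of a letter. -/
def blk : Option Λ → List ℕ
  | none => []
  | some l => (List.range K).map fun j => sy (.inl (l, j))

/-- One for a letter, zero for the empty letter. -/
def wt : Option Λ → ℕ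
  | none => 0
  | some _ => 1

theorem length_blk (o : Option Λ) : (blk K sy o).length = K * wt o := by
  cases o <;> simp [blk, wt]

theorem getElem?_blk (l : Λ) {j : ℕ} (hj : j < K) :
    (blk K sy (some l))[j]? = some (sy (.inl (l, j))) := by
  simp [blk, hj]

theorem getElem?_of_prefix {m T : List ℕ} {p i : ℕ} {x : ℕ} (h : m <+: T.drop p)
    (hx : m[i]? = some x) : T[p + i]? = some x := by
  obtain ⟨v, hv⟩ := h
  rw [← List.getElem?_drop, ← hv,
    List.getElem?_append_left (List.getElem?_eq_some_iff.1 hx).1, hx]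

theorem prefix_drop_of_append {u v T : List ℕ} {p : ℕ} (h : u ++ v <+: T.drop p) :
    v <+: T.drop (p + u.length) := by
  obtain ⟨w, hw⟩ := h
  refine ⟨w, ?_⟩
  rw [← List.drop_drop, ← hw, List.append_assoc, List.drop_left]

variable (lf rt : Z → Option Λ)

/-- A separator with its two neighbouring blocks. -/
def pat (s : Z) : List ℕ := blk K sy (lf s) ++ sy (.inr s) :: blk K sy (rt s)

open Classical in
/-- The starting points of the occurrences of a pattern. -/
noncomputable def occ (T : List ℕ) (s : Z) : Finset ℕ :=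
  (range T.length).filter fun p => pat K sy lf rt s <+: T.drop p

variable {K sy lf rt}

theorem occ_sep {T : List ℕ} {s : Z} {p : ℕ} (h : pat K sy lf rt s <+: T.drop p) :
    T[p + K * wt (lf s)]? = some (sy (.inr s)) :=
  getElem?_of_prefix h (by rw [pat, ← length_blk K sy, List.getElem?_append_right le_rfl]; simp)

theorem mem_occ {T : List ℕ} {s : Z} {p : ℕ} :
    p ∈ occ K sy lf rt T s ↔ pat K sy lf rt s <+: T.drop p := by
  classical
  rw [occ, mem_filter, mem_range, and_iff_right_iff_imp]
  intro h
  have := (List.getElem?_eq_some_iff.1 (occ_sep h)).1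
  omega

theorem occ_left {T : List ℕ} {s : Z} {p j : ℕ} {l : Λ} (h : pat K sy lf rt s <+: T.drop p)
    (hl : lf s = some l) (hj : j < K) : T[p + j]? = some (sy (.inl (l, j))) :=
  getElem?_of_prefix h (by
    rw [pat, hl, List.getElem?_append_left (by rw [length_blk]; simpa [wt] using hj),
      getElem?_blk K sy l hj])

theorem occ_right {T : List ℕ} {s : Z} {p j : ℕ} {l : Λ} (h : pat K sy lf rt s <+: T.drop p)
    (hl : rt s = some l) (hj : j < K) :
    T[p + K * wt (lf s) + 1 + j]? = some (sy (.inl (l, j))) := by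
  have h1 := prefix_drop_of_append h
  rw [length_blk, hl] at h1
  have h2 := getElem?_of_prefix (i := j + 1) h1
    (by rw [List.getElem?_cons_succ, getElem?_blk K sy l hj])
  rwa [show p + K * wt (lf s) + (j + 1) = p + K * wt (lf s) + 1 + j by omega] at h2

variable [Fintype Λ] [DecidableEq Λ] [Fintype Z]

/-- The counting bound. -/
theorem count_le (hsy : Function.Injective sy) (T : List ℕ) :
    K * ∑ l : Λ, max (∑ s, if lf s = some l then (occ K sy lf rt T s).card else 0)
      (∑ s, if rt s = some l then (occ K sy lf rt T s).card else 0) ≤ T.length := by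
  classical
  let pos : Λ × ℕ → Finset ℕ := fun x =>
    (range T.length).filter fun q => T[q]? = some (sy (.inl x))
  have hpos : ∀ x q, T[q]? = some (sy (.inl x)) → q ∈ pos x := fun x q h =>
    mem_filter.2 ⟨mem_range.2 (List.getElem?_eq_some_iff.1 h).1, h⟩
  have h1 : ∑ x ∈ (univ : Finset Λ) ×ˢ range K, (pos x).card ≤ T.length := by
    rw [← card_biUnion]
    · exact (card_le_card (biUnion_subset.2 fun x _ => filter_subset _ _)).trans_eq (card_range _)
    · intro x _ y _ hxy
      refine disjoint_left.2 fun q h1 h2 => hxy ?_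
      have := ((mem_filter.1 h1).2).symm.trans (mem_filter.1 h2).2
      exact Sum.inl.inj (hsy (Option.some.inj this))
  refine le_trans ?_ h1
  rw [sum_product, mul_sum]
  refine sum_le_sum fun l _ => ?_
  rw [← card_range K, ← smul_eq_mul, ← sum_const, card_range]
  refine sum_le_sum fun j hj => ?_
  have hj' := mem_range.1 hj
  refine max_le ?_ ?_
  · rw [← sum_filter, ← card_sigma]
    refine card_le_card_of_injOn (fun x => x.2 + j) (fun x hx => ?_) fun x hx y hy e => ?_
    · obtain ⟨h1, h2⟩ := mem_sigma.1 (mem_coe.1 hx)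
      exact mem_coe.2 (hpos _ _ (occ_left (mem_occ.1 h2) (mem_filter.1 h1).2 hj'))
    · obtain ⟨h1, h2⟩ := mem_sigma.1 (mem_coe.1 hx)
      obtain ⟨h3, h4⟩ := mem_sigma.1 (mem_coe.1 hy)
      obtain ⟨s, p⟩ := x
      obtain ⟨s', p'⟩ := y
      obtain rfl : p = p' := by simpa using e
      have e1 := occ_sep (mem_occ.1 h2)
      have e2 := occ_sep (mem_occ.1 h4)
      rw [(mem_filter.1 h1).2] at e1
      rw [(mem_filter.1 h3).2] at e2
      obtain rfl : s = s' := Sum.inr.inj (hsy (Option.some.inj (e1.symm.trans e2)))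
      rfl
  · rw [← sum_filter, ← card_sigma]
    refine card_le_card_of_injOn (fun x => x.2 + K * wt (lf x.1) + 1 + j) (fun x hx => ?_)
      fun x hx y hy e => ?_
    · obtain ⟨h1, h2⟩ := mem_sigma.1 (mem_coe.1 hx)
      exact mem_coe.2 (hpos _ _ (occ_right (mem_occ.1 h2) (mem_filter.1 h1).2 hj'))
    · obtain ⟨h1, h2⟩ := mem_sigma.1 (mem_coe.1 hx)
      obtain ⟨h3, h4⟩ := mem_sigma.1 (mem_coe.1 hy)
      obtain ⟨s, p⟩ := x
      obtain ⟨s', p'⟩ := y
      have e0 : p + K * wt (lf s) = p' + K * wt (lf s') := by simpa using e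
      have e1 := occ_sep (mem_occ.1 h2)
      have e2 := occ_sep (mem_occ.1 h4)
      dsimp only at e1 e2
      rw [e0] at e1
      obtain rfl : s = s' := Sum.inr.inj (hsy (Option.some.inj (e1.symm.trans e2)))
      obtain rfl : p = p' := by omega
      rfl

variable (K sy)

/-- A word with distinguished first and last letter. -/
def word (β : Option Λ × List ℕ × Option Λ) : List ℕ :=
  blk K sy β.1 ++ β.2.1 ++ blk K sy β.2.2

omit [Fintype Z] in
theorem sum_wt {β : Type} (f : β → Option Λ) (B : Multiset β) :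
    (B.map fun x => wt (f x)).sum = ∑ l : Λ, B.countP fun x => f x = some l := by
  induction B using Multiset.induction_on with
  | empty => simp
  | cons x B ih =>
    simp only [Multiset.map_cons, Multiset.sum_cons, ih, Multiset.countP_cons, sum_add_distrib]
    rw [add_comm]
    congr 1
    cases f x <;> simp [wt]

omit [Fintype Z] in
/-- Merging words along an acyclic structure. -/
theorem exists_merge (r : Λ → ℕ) (n : ℕ) :
    ∀ B : Multiset (Option Λ × List ℕ × Option Λ), B.card = n →
      (∀ β ∈ B, ∀ l l', β.1 = some l → β.2.2 = some l' → r l < r l') →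
      ∃ T : List ℕ, (∀ β ∈ B, word K sy β <:+: T) ∧
        T.length ≤ (B.map fun β => β.2.1.length).sum +
          K * ∑ l, max (B.countP fun β => β.1 = some l) (B.countP fun β => β.2.2 = some l) := by
  classical
  induction n using Nat.strong_induction_on with
  | _ n ih =>
  intro B hB hr
  by_cases h : ∃ β₁ ∈ B, ∃ β₂ ∈ B, ∃ l, β₁.2.2 = some l ∧ β₂.1 = some l
  · obtain ⟨β₁, h₁, β₂, h₂, l, e₁, e₂⟩ := h
    have hne : β₂ ≠ β₁ := by
      rintro rfl
      exact lt_irrefl _ (hr _ h₁ l l e₂ e₁)
    obtain ⟨B₁, rfl⟩ := Multiset.exists_cons_of_mem h₁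
    obtain ⟨B₂, rfl⟩ := Multiset.exists_cons_of_mem ((Multiset.mem_cons.1 h₂).resolve_left hne)
    obtain ⟨T, hT, hl⟩ := ih (B₂.card + 1) (by simp at hB; omega)
      ((β₁.1, β₁.2.1 ++ blk K sy (some l) ++ β₂.2.1, β₂.2.2) ::ₘ B₂) (by simp) (by
        intro β hβ l₁ l₂ a₁ a₂
        rcases Multiset.mem_cons.1 hβ with rfl | hβ
        · exact (hr _ h₁ l₁ l a₁ e₁).trans (hr _ h₂ l l₂ e₂ a₂)
        · exact hr _ (by simp [hβ]) l₁ l₂ a₁ a₂)
    have h0 := hT _ (Multiset.mem_cons_self _ _)
    refine ⟨T, fun β hβ => ?_, hl.trans (le_of_eq ?_)⟩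
    · rcases Multiset.mem_cons.1 hβ with rfl | hβ
      · refine List.IsInfix.trans (List.IsPrefix.isInfix ⟨β₂.2.1 ++ blk K sy β₂.2.2, ?_⟩) h0
        simp [word, e₁]
      rcases Multiset.mem_cons.1 hβ with rfl | hβ
      · refine List.IsInfix.trans (List.IsSuffix.isInfix ⟨blk K sy β₁.1 ++ β₁.2.1, ?_⟩) h0
        simp [word, e₂]
      · exact hT _ (Multiset.mem_cons_of_mem hβ)
    · have h3 : ∀ l', max ((β₁ ::ₘ β₂ ::ₘ B₂).countP fun β => β.1 = some l')
          ((β₁ ::ₘ β₂ ::ₘ B₂).countP fun β => β.2.2 = some l') =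
          max (((β₁.1, β₁.2.1 ++ blk K sy (some l) ++ β₂.2.1, β₂.2.2) ::ₘ B₂).countP
            fun β => β.1 = some l')
          (((β₁.1, β₁.2.1 ++ blk K sy (some l) ++ β₂.2.1, β₂.2.2) ::ₘ B₂).countP
            fun β => β.2.2 = some l') + if l = l' then 1 else 0 := by
        intro l'
        simp only [Multiset.countP_cons, e₁, e₂, Option.some.injEq]
        omega
      simp only [h3, sum_add_distrib, sum_ite_eq, mem_univ, if_true, Multiset.map_cons,
        Multiset.sum_cons, List.length_append, length_blk, wt]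
      ring
  · refine ⟨B.toList.flatMap (word K sy), fun β hβ => ?_, le_of_eq ?_⟩
    · exact List.infix_of_mem_flatten (List.mem_map_of_mem (Multiset.mem_toList.2 hβ))
    · have h3 : ∀ l, max (B.countP fun β => β.1 = some l) (B.countP fun β => β.2.2 = some l) =
          (B.countP fun β => β.1 = some l) + B.countP fun β => β.2.2 = some l := by
        intro l
        by_cases h1 : (B.countP fun β => β.1 = some l) = 0
        · simp [h1]
        by_cases h2 : (B.countP fun β => β.2.2 = some l) = 0
        · simp [h2]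
        obtain ⟨β₂, a₂, b₂⟩ := Multiset.countP_pos.1 (Nat.pos_of_ne_zero h1)
        obtain ⟨β₁, a₁, b₁⟩ := Multiset.countP_pos.1 (Nat.pos_of_ne_zero h2)
        exact absurd ⟨β₁, a₁, β₂, a₂, l, b₁, b₂⟩ h
      simp only [h3, sum_add_distrib]
      rw [← sum_wt (fun β : Option Λ × List ℕ × Option Λ => β.1),
        ← sum_wt (fun β : Option Λ × List ℕ × Option Λ => β.2.2), List.length_flatMap,
        ← Multiset.sum_coe, ← Multiset.map_coe, Multiset.coe_toList, mul_add,
        ← Multiset.sum_map_mul_left, ← Multiset.sum_map_mul_left, ← Multiset.sum_map_add,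
        ← Multiset.sum_map_add]
      refine congrArg _ (Multiset.map_congr rfl fun β _ => ?_)
      simp only [word, List.length_append, length_blk]
      ring

end Generic

end Vale.Agent.N333
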