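import Vale.Agent.N333.SrcDefs
import Vale.Agent.Lib.PCP.LabelCover
import Vale.Agent.Lib.PCP.Hastad

/-!
The theorem of Hastad for three layers of variables with bounded occurrences.
-/

namespace Vale.Agent.N333

open Vale.Agent.Lib.PCP Vale.Agent.Lib.PolyTime Finset

theorem countP_flatMap_le {α β : Type} (l : List α) (f : α → List β) (p : β → Bool) (q : α → Bool)
    {K : ℕ} (hK : ∀ a, (f a).length ≤ K) (h : ∀ a ∈ l, ∀ b ∈ f a, p b = true → q a = true) :
    (l.flatMap f).countP p ≤ K * l.countP q := by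
  induction l with
  | nil => simp
  | cons a l ih =>
    rw [List.flatMap_cons, List.countP_append, List.countP_cons]
    have h1 := ih fun a' ha' => h a' (List.mem_cons_of_mem _ ha')
    by_cases hq : q a = true
    · have h2 : (f a).countP p ≤ K := List.countP_le_length.trans (hK a)
      rw [if_pos hq, mul_add]
      omega
    · have h2 : (f a).countP p = 0 :=
        List.countP_eq_zero.2 fun b hb hp => hq (h a List.mem_cons_self b hb hp)
      rw [if_neg hq, h2]
      simpa using h1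

section

variable {D A B : Type} [Fintype D]

theorem edges_left (G : LC D A B) (u : ℕ) :
    (G.edges.countP fun c => decide (c.1 = u)) ≤ Fintype.card D := by
  have h1 := countP_flatMap_le (List.range G.nU)
    (fun u => (univ : Finset D).toList.map fun i => ((u, G.nbr u i, G.proj u i) : PEdge ℕ ℕ A B))
    (fun c => decide (c.1 = u)) (fun x => x == u) (K := Fintype.card D) (by simp) (by
      intro a _ b hb hp
      obtain ⟨i, -, rfl⟩ := List.mem_map.1 hb
      simpa using hp)
  have h2 : (List.range G.nU).countP (fun x => x == u) ≤ 1 :=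
    List.nodup_iff_count_le_one.1 List.nodup_range u
  exact h1.trans ((Nat.mul_le_mul_left _ h2).trans (by rw [mul_one]))

theorem edges_right {G : LC D A B} {dV : ℕ} (hG : G.WF dV) (v : ℕ) :
    (G.edges.countP fun c => decide (c.2.1 = v)) ≤ dV := by
  by_cases hv : v < G.nV
  · have h1 : ((G.edges.countP fun c => decide (c.2.1 = v) : ℕ) : ℝ) =
        ∑ u ∈ range G.nU, ∑ i, if G.nbr u i = v then (1 : ℝ) else 0 := by
      rw [countP_eq_sum, LC.edges, sum_map_flatMap, sum_map_range]
      refine sum_congr rfl fun u _ => ?_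
      rw [List.map_map, sum_map_univ]
      refine sum_congr rfl fun i _ => ?_
      simp
    have h2 : ((∑ u ∈ range G.nU, ∑ i, (if G.nbr u i = v then 1 else 0) : ℕ) : ℝ) = dV := by
      rw [hG.reg v hv]
    push_cast at h2
    rw [h2] at h1
    exact le_of_eq (by exact_mod_cast h1)
  · rw [List.countP_eq_zero.2]
    · exact Nat.zero_le _
    intro c hc
    simp only [LC.edges, List.mem_flatMap, List.mem_range, List.mem_map] at hc
    obtain ⟨u, hu, i, -, rfl⟩ := hc
    have := hG.lt u hu i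
    simp only [decide_eq_true_eq]
    omega

end

section

variable {A B : Type} [Fintype A] [DecidableEq A] [Fintype B] [DecidableEq B] [Enc B] [EncInj B]

/-- The system of equations of Hastad. -/
noncomputable def hSys (N : ℕ) (b₀ : B) (l : List (PEdge ℕ ℕ A B)) : List (Eq3 ℕ) :=
  (l.flatMap (hBlock N b₀)).map (renLin name)

theorem PT_hSys (N : ℕ) (b₀ : B) : PT ∅ fun l : List (PEdge ℕ ℕ A B) => hSys N b₀ l :=
  PT.map (PT.flatMap PT.id ((PT_hBlock N b₀).comp PT.snd'))
    ((PT.name PT.snd'.fst).pair ((PT.name PT.snd'.snd.fst).pair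
      ((PT.name PT.snd'.snd.snd.fst).pair PT.snd'.snd.snd.snd)))

omit [Enc B] [EncInj B] in
theorem length_hSys (N : ℕ) (b₀ : B) (l : List (PEdge ℕ ℕ A B)) :
    (hSys N b₀ l).length = Fintype.card (HTape A B N) * l.length := by
  rw [hSys, List.length_map, length_flatMap_const _ _ _ fun c _ => length_hBlock N b₀ c]

omit [Enc B] [EncInj B] in
theorem count_hSys (N : ℕ) (b₀ : B) (l : List (PEdge ℕ ℕ A B)) {d : ℕ}
    (h1 : ∀ u, (l.countP fun c => decide (c.1 = u)) ≤ d)
    (h2 : ∀ v, (l.countP fun c => decide (c.2.1 = v)) ≤ d) (p : Fin 3) (v : ℕ) :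
    ((hSys N b₀ l).countP fun c => decide (varAt p c = v)) ≤ Fintype.card (HTape A B N) * d := by
  let key : HVar A B → ℕ := Sum.elim (fun t => t.1) fun t => t.1
  obtain ⟨κ, hκ⟩ := exists_transport' (name_injective (V := HVar A B)) key
  rw [hSys, List.countP_map]
  have h3 : ∀ q : PEdge ℕ ℕ A B → Bool, l.countP q ≤ d →
      (∀ c, ∀ r : HTape A B N, varAt p (renLin name (hEq b₀ c r)) = v → q c = true) →
      (l.flatMap (hBlock N b₀)).countP ((fun c => decide (varAt p c = v)) ∘ renLin name) ≤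
        Fintype.card (HTape A B N) * d := by
    intro q hq h
    refine (countP_flatMap_le l _ _ q (fun c => (length_hBlock N b₀ c).le) ?_).trans
      (Nat.mul_le_mul_left _ hq)
    intro c _ e he hp
    obtain ⟨r, -, rfl⟩ := List.mem_map.1 he
    exact h c r (by simpa using hp)
  fin_cases p
  · refine h3 _ (h1 (κ v)) fun c r h => decide_eq_true ?_
    rw [← h]
    exact (hκ (hEq b₀ c r).1).symm
  · refine h3 _ (h2 (κ v)) fun c r h => decide_eq_true ?_
    rw [← h]
    exact (hκ (hEq b₀ c r).2.1).symm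
  · refine h3 _ (h2 (κ v)) fun c r h => decide_eq_true ?_
    rw [← h]
    exact (hκ (hEq b₀ c r).2.2.1).symm

omit [Enc B] [EncInj B] in
theorem complete_hSys {N : ℕ} (hN : 0 < N) (b₀ : B) (l : List (PEdge ℕ ℕ A B))
    (a : (ℕ → B) × (ℕ → A)) : ∃ σ,
      (1 - 1 / N) * (Fintype.card (HTape A B N) * cnt satP l a) ≤
        (cnt sat3 (hSys N b₀ l) σ : ℝ) := by
  obtain ⟨σ, hσ⟩ := hastad_complete hN b₀ l a
  obtain ⟨σ', h'⟩ := exists_transport' (name_injective (V := HVar A B)) σ
  refine ⟨fun _ => σ', ?_⟩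
  rwa [hSys, cnt_map (sat := satLin) _ _ σ (fun _ => σ') fun c _ => by
    simp only [sat3, satLin, renLin, h']]

omit [Enc B] [EncInj B] in
theorem sound_hSys [Nonempty A] {N : ℕ} (hN : 2 ≤ N) (b₀ : B) {δ ε : ℝ} (hε : 0 < ε)
    (hδ : N * δ ≤ 16 * ε ^ 2) (l : List (PEdge ℕ ℕ A B))
    (h : ∀ a, (cnt satP l a : ℝ) ≤ δ * l.length) (σ : Fin 3 → ℕ → Bool) :
    (cnt sat3 (hSys N b₀ l) σ : ℝ) ≤ (1 / 2 + ε) * (Fintype.card (HTape A B N) * l.length) := by
  let lay : HVar A B → Fin 3 := Sum.elim (fun _ => 0) fun t => bif t.2.1 then 2 else 1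
  rw [hSys, cnt_map (sat := satLin) _ _ (fun v => σ (lay v) (name v)) σ]
  · exact hastad_sound hN b₀ hε hδ l h _
  · intro e he
    obtain ⟨c, -, he⟩ := List.mem_flatMap.1 he
    obtain ⟨r, -, rfl⟩ := List.mem_map.1 he
    rfl

end

/-- The theorem of Hastad, three layers, bounded occurrences. -/
theorem hard_lin3B {ε : ℝ} (hε : 0 < ε) : ∃ D, Hard (Lin3B D ε) := by
  obtain ⟨N, hN⟩ := exists_nat_ge (max 2 (1 / ε))
  have h1 : (2 : ℝ) ≤ N := (le_max_left _ _).trans hN
  have h2 : 1 / ε ≤ N := (le_max_right _ _).trans hN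
  have h3 : 2 ≤ N := by exact_mod_cast h1
  have h4 : 1 / (N : ℝ) ≤ ε := (one_div_le (by linarith) hε).2 h2
  obtain ⟨d, a, b, dV, F, -, h⟩ := label_cover (16 * ε ^ 2 / N) (by positivity)
  have : Nonempty (Fin N) := ⟨⟨0, by omega⟩⟩
  have hne : ∀ φ, hSys N (0 : Fin (b + 1)) (F φ).edges ≠ [] := fun φ => by
    rw [← List.length_pos_iff, length_hSys]
    exact Nat.mul_pos Fintype.card_pos (List.length_pos_iff.2 (LC.edges_ne_nil (h.wf φ).pos))
  refine ⟨Fintype.card (HTape (Fin (a + 1)) (Fin (b + 1)) N) * max (d + 1) dV,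
    fun φ => hSys N (0 : Fin (b + 1)) (F φ).edges, (PT_hSys N 0).comp h.pt.edges,
    fun φ hφ => ⟨hne φ, ?_⟩, fun φ hφ => ⟨hne φ, fun p v => ?_, fun σ => ?_⟩⟩
  · obtain ⟨t, ht⟩ := (h.sat φ hφ).edges
    obtain ⟨σ, hσ⟩ := complete_hSys (by omega : 0 < N) (0 : Fin (b + 1)) (F φ).edges t
    refine ⟨σ, le_trans ?_ hσ⟩
    rw [cnt_eq_length_iff.2 ht, length_hSys]
    push_cast
    exact mul_le_mul_of_nonneg_right (by linarith) (by positivity)
  · refine count_hSys N 0 _ (fun u => (edges_left _ u).trans ?_)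
      (fun v => (edges_right (h.wf φ) v).trans (le_max_right _ _)) p v
    rw [Fintype.card_fin]
    exact le_max_left _ _
  · rw [length_hSys]
    push_cast
    exact sound_hSys h3 0 hε (le_of_eq (by field_simp)) _ (h.val φ hφ).edges σ

end Vale.Agent.N333
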