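import Vale.Agent.N333.Scs

/-!
Systems of switches. A switch with letters `a, b, c` consists of the strings `A # B % C` and
`B % C & A # B`; it is laid out either as `A # B % C & A # B` or as `B % C & A # B % C`.
-/

namespace Vale.Agent.N333

open Finset Vale.Agent.P333

section Strings

variable {Λ Z : Type} (K : ℕ) (sy : (Λ × ℕ) ⊕ Z → ℕ)

/-- The first string of a switch. -/
def str1 (z : Fin 3 → Z) (a b c : Option Λ) : List ℕ :=
  blk K sy a ++ sy (.inr (z 0)) :: (blk K sy b ++ sy (.inr (z 1)) :: blk K sy c)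

/-- The second string of a switch. -/
def str2 (z : Fin 3 → Z) (a b c : Option Λ) : List ℕ :=
  blk K sy b ++ sy (.inr (z 1)) :: (blk K sy c ++ sy (.inr (z 2)) ::
    (blk K sy a ++ sy (.inr (z 0)) :: blk K sy b))

/-- A constant arc. -/
def str0 (z : Z) (a b : Option Λ) : List ℕ := blk K sy a ++ sy (.inr z) :: blk K sy b

end Strings

/-- Switches indexed by `ι` and constant arcs indexed by `κ`. -/
structure Sys (Λ ι κ : Type) where
  /-- first letter of a switch -/
  a : ι → Option Λ
  /-- second letter of a switch -/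
  b : ι → Option Λ
  /-- third letter of a switch -/
  c : ι → Option Λ
  /-- first letter of a constant arc -/
  u : κ → Option Λ
  /-- last letter of a constant arc -/
  v : κ → Option Λ

namespace Sys

variable {Λ ι κ : Type} (X : Sys Λ ι κ)

/-- First letter of the arc. -/
def st (x : ι → Bool) : ι ⊕ κ → Option Λ
  | .inl i => if x i then X.a i else X.b i
  | .inr j => X.u j

/-- Last letter of the arc. -/
def en (x : ι → Bool) : ι ⊕ κ → Option Λ
  | .inl i => if x i then X.b i else X.c i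
  | .inr j => X.v j

/-- The letter to the left of a separator. -/
def lf : (ι × Fin 3) ⊕ κ → Option Λ
  | .inl (i, m) => ![X.a i, X.b i, X.c i] m
  | .inr j => X.u j

/-- The letter to the right of a separator. -/
def rt : (ι × Fin 3) ⊕ κ → Option Λ
  | .inl (i, m) => ![X.b i, X.c i, X.a i] m
  | .inr j => X.v j

variable [Fintype Λ] [DecidableEq Λ] [Fintype ι] [Fintype κ]

/-- The cost of a choice of states. -/
def cost (x : ι → Bool) : ℕ :=
  ∑ i, (wt (X.a i) + wt (X.b i) + wt (X.c i)) +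
    ∑ l : Λ, max (∑ ω, if X.st x ω = some l then 1 else 0) (∑ ω, if X.en x ω = some l then 1 else 0)

variable (K : ℕ) (sy : (Λ × ℕ) ⊕ ((ι × Fin 3) ⊕ κ) → ℕ)

/-- `S` is the set of strings of the system. -/
def IsInst (S : List (List ℕ)) : Prop :=
  ∀ s, s ∈ S ↔ (∃ i, s = str1 K sy (fun m => .inl (i, m)) (X.a i) (X.b i) (X.c i) ∨
    s = str2 K sy (fun m => .inl (i, m)) (X.a i) (X.b i) (X.c i)) ∨
      ∃ j, s = str0 K sy (.inr j) (X.u j) (X.v j)

variable {X K sy}

theorem sum_ite_wt (o : Option Λ) : ∑ l : Λ, (if o = some l then 1 else 0) = wt o := by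
  cases o <;> simp [wt]

theorem exists_drop {s T : List ℕ} (h : s <:+: T) : ∃ p, s <+: T.drop p := by
  obtain ⟨u, v, rfl⟩ := h
  exact ⟨u.length, v, by rw [List.append_assoc, List.drop_left]⟩

/-- The lower bound. -/
theorem cost_le_opt (hsy : Function.Injective sy) {S : List (List ℕ)} (hS : X.IsInst K sy S) :
    ∃ x, K * X.cost x ≤ opt S := by
  classical
  obtain ⟨T, hT, hl⟩ := exists_opt S
  set n : (ι × Fin 3) ⊕ κ → ℕ := fun s => (occ K sy X.lf X.rt T s).card with hn
  have hk : ∀ j, 1 ≤ n (.inr j) := fun j => by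
    obtain ⟨p, hp⟩ := exists_drop (hT _ ((hS _).2 (Or.inr ⟨j, rfl⟩)))
    exact card_pos.2 ⟨p, mem_occ.2 hp⟩
  have hi : ∀ i, 1 ≤ n (.inl (i, 0)) ∧ 1 ≤ n (.inl (i, 1)) ∧ 1 ≤ n (.inl (i, 2)) ∧
      (2 ≤ n (.inl (i, 0)) ∨ 2 ≤ n (.inl (i, 1))) := fun i => by
    obtain ⟨p, hp⟩ := exists_drop (hT _ ((hS _).2 (Or.inl ⟨i, Or.inl rfl⟩)))
    obtain ⟨q, hq⟩ := exists_drop (hT _ ((hS _).2 (Or.inl ⟨i, Or.inr rfl⟩)))
    have a1 : p ∈ occ K sy X.lf X.rt T (.inl (i, 0)) :=
      mem_occ.2 (List.IsPrefix.trans ⟨sy (.inr (.inl (i, 1))) :: blk K sy (X.c i), by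
        simp [pat, lf, rt, str1]⟩ hp)
    have a2 : p + (blk K sy (X.a i) ++ [sy (.inr (.inl (i, 0)))]).length ∈
        occ K sy X.lf X.rt T (.inl (i, 1)) :=
      mem_occ.2 (prefix_drop_of_append (by simpa [pat, lf, rt, str1] using hp))
    have a3 : q ∈ occ K sy X.lf X.rt T (.inl (i, 1)) :=
      mem_occ.2 (List.IsPrefix.trans ⟨sy (.inr (.inl (i, 2))) :: (blk K sy (X.a i) ++
        sy (.inr (.inl (i, 0))) :: blk K sy (X.b i)), by simp [pat, lf, rt, str2]⟩ hq)
    have a4 : q + (blk K sy (X.b i) ++ [sy (.inr (.inl (i, 1)))]).length ∈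
        occ K sy X.lf X.rt T (.inl (i, 2)) :=
      mem_occ.2 (List.IsPrefix.trans ⟨sy (.inr (.inl (i, 0))) :: blk K sy (X.b i), rfl⟩
        (prefix_drop_of_append (by simpa [pat, lf, rt, str2] using hq)))
    have a5 : q + (blk K sy (X.b i) ++ sy (.inr (.inl (i, 1))) :: (blk K sy (X.c i) ++
        [sy (.inr (.inl (i, 2)))])).length ∈ occ K sy X.lf X.rt T (.inl (i, 0)) :=
      mem_occ.2 (prefix_drop_of_append (by simpa [pat, lf, rt, str2] using hq))
    refine ⟨card_pos.2 ⟨_, a1⟩, card_pos.2 ⟨_, a2⟩, card_pos.2 ⟨_, a4⟩, ?_⟩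
    by_contra h
    rw [not_or, not_le, not_le] at h
    have e1 := card_le_one.1 (Nat.lt_succ_iff.1 h.1) _ a1 _ a5
    have e2 := card_le_one.1 (Nat.lt_succ_iff.1 h.2) _ a2 _ a3
    simp only [List.length_append, List.length_cons] at e1 e2
    omega
  have hc : K * ∑ l : Λ, max (∑ s, if X.lf s = some l then n s else 0)
      (∑ s, if X.rt s = some l then n s else 0) ≤ T.length := count_le hsy T
  clear_value n
  refine ⟨fun i => decide (2 ≤ n (.inl (i, 0))), le_trans (Nat.mul_le_mul_left K ?_)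
    (hc.trans hl.le)⟩
  simp only [cost, ← sum_ite_wt]
  simp only [← sum_add_distrib]
  rw [sum_comm, ← sum_add_distrib]
  refine sum_le_sum fun l _ => ?_
  rw [← max_add_add_left]
  refine max_le_max ?_ ?_
  · simp only [Fintype.sum_sum_type, Fintype.sum_prod_type, Fin.sum_univ_three, ← add_assoc,
      ← sum_add_distrib]
    refine add_le_add (sum_le_sum fun i _ => ?_) (sum_le_sum fun j _ => ?_)
    · obtain ⟨h0, h1, h2, h3⟩ := hi i
      by_cases h : 2 ≤ n (.inl (i, 0)) <;> by_cases ha : X.a i = some l <;>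
        by_cases hb : X.b i = some l <;> by_cases hc : X.c i = some l <;>
        simp [st, lf, h, ha, hb, hc] <;> omega
    · have := hk j
      by_cases h : X.u j = some l <;> simp [st, lf, h, this]
  · simp only [Fintype.sum_sum_type, Fintype.sum_prod_type, Fin.sum_univ_three, ← add_assoc,
      ← sum_add_distrib]
    refine add_le_add (sum_le_sum fun i _ => ?_) (sum_le_sum fun j _ => ?_)
    · obtain ⟨h0, h1, h2, h3⟩ := hi i
      by_cases h : 2 ≤ n (.inl (i, 0)) <;> by_cases ha : X.a i = some l <;>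
        by_cases hb : X.b i = some l <;> by_cases hc : X.c i = some l <;>
        simp [en, rt, h, ha, hb, hc] <;> omega
    · have := hk j
      by_cases h : X.v j = some l <;> simp [en, rt, h, this]

/-- The upper bound. -/
theorem opt_le_cost {S : List (List ℕ)} (hS : X.IsInst K sy S) (x : ι → Bool) (r : Λ → ℕ)
    (hr : ∀ ω l l', X.st x ω = some l → X.en x ω = some l' → r l < r l') :
    opt S ≤ K * X.cost x + (4 * Fintype.card ι + Fintype.card κ) := by
  classical
  let mid : ι ⊕ κ → List ℕ := fun ω => match ω with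
    | .inl i => if x i then
        sy (.inr (.inl (i, 0))) :: (blk K sy (X.b i) ++ sy (.inr (.inl (i, 1))) ::
          (blk K sy (X.c i) ++ sy (.inr (.inl (i, 2))) :: (blk K sy (X.a i) ++
            [sy (.inr (.inl (i, 0)))])))
      else
        sy (.inr (.inl (i, 1))) :: (blk K sy (X.c i) ++ sy (.inr (.inl (i, 2))) ::
          (blk K sy (X.a i) ++ sy (.inr (.inl (i, 0))) :: (blk K sy (X.b i) ++
            [sy (.inr (.inl (i, 1)))])))
    | .inr j => [sy (.inr (.inr j))]
  obtain ⟨T, hT, hl⟩ := exists_merge K sy r _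
    ((univ : Finset (ι ⊕ κ)).val.map fun ω => (X.st x ω, mid ω, X.en x ω)) rfl (by
      intro β hβ l l' h1 h2
      obtain ⟨ω, -, rfl⟩ := Multiset.mem_map.1 hβ
      exact hr ω l l' h1 h2)
  have hω : ∀ ω, word K sy (X.st x ω, mid ω, X.en x ω) <:+: T := fun ω =>
    hT _ (Multiset.mem_map_of_mem _ (mem_univ ω))
  have h1 : IsSuperstring S T := by
    intro s hs
    rcases (hS s).1 hs with ⟨i, rfl | rfl⟩ | ⟨j, rfl⟩
    · refine List.IsInfix.trans ?_ (hω (.inl i))
      cases h : x i
      · refine List.IsSuffix.isInfix ⟨blk K sy (X.b i) ++ sy (.inr (.inl (i, 1))) ::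
          (blk K sy (X.c i) ++ [sy (.inr (.inl (i, 2)))]), ?_⟩
        simp [word, mid, st, en, h, str1]
      · refine List.IsPrefix.isInfix ⟨sy (.inr (.inl (i, 2))) :: (blk K sy (X.a i) ++
          sy (.inr (.inl (i, 0))) :: blk K sy (X.b i)), ?_⟩
        simp [word, mid, st, en, h, str1]
    · refine List.IsInfix.trans ?_ (hω (.inl i))
      cases h : x i
      · refine List.IsPrefix.isInfix ⟨sy (.inr (.inl (i, 1))) :: blk K sy (X.c i), ?_⟩
        simp [word, mid, st, en, h, str2]
      · refine List.IsSuffix.isInfix ⟨blk K sy (X.a i) ++ [sy (.inr (.inl (i, 0)))], ?_⟩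
        simp [word, mid, st, en, h, str2]
    · simpa [word, mid, st, en, str0] using hω (.inr j)
  refine (opt_le h1).trans (hl.trans (le_of_eq ?_))
  have h2 : ∀ f : ι ⊕ κ → Option Λ, ∀ l,
      Multiset.card (Multiset.filter (fun ω => f ω = some l) (univ : Finset (ι ⊕ κ)).val) =
        ∑ ω, if f ω = some l then 1 else 0 := fun f l => by
    rw [← card_filter]
    rfl
  have h3 : ∀ i, (mid (.inl i)).length = K * (wt (X.a i) + wt (X.b i) + wt (X.c i)) + 4 := by
    intro i
    cases h : x i <;> simp [mid, h, length_blk] <;> ring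
  simp only [Multiset.countP_map, h2, Multiset.map_map, Function.comp_def]
  rw [← Finset.sum_eq_multiset_sum, Fintype.sum_sum_type]
  simp only [h3, cost, sum_add_distrib, ← mul_sum]
  simp [mid]
  ring

end Sys

end Vale.Agent.N333
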