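import Vale.Agent.Lib.PCP.NPBridge
import Vale.Agent.P333.Bridge

/-!
From the hardness of the gap problem of the shortest common superstring to inapproximability.
-/

namespace Vale.Agent.N333

open Vale.Agent.Lib.PolyTime Vale.Agent.Lib.PolyTime.OfTM2 Vale.Agent.Lib.PCP Vale.Agent.Lib.NP
open Vale.Agent.P333 Function Turing

/-- Machines of Mathlib on coded inputs are simulated in `FP`. -/
theorem exists_FP_of_tm2 {A : Set Word} {α β : Type} {ea : α → Word} {eb : β → Word} {f : α → β}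
    (M : TM2ComputableInPolyTime ea eb f) : ∃ g, FP A g ∧ ∀ a, g (ea a) = eb (f a) := by
  have hK : Fintype M.tm.K := M.tm.kFin
  have hΛ : Fintype M.tm.Λ := M.tm.ΛFin
  have hσ : Fintype M.tm.σ := M.tm.σFin
  set inp : Bool → M.tm.Γ M.tm.k₀ := M.inputAlphabet.invFun with hinp
  set out : Bool → M.tm.Γ M.tm.k₁ := M.outputAlphabet.invFun with hout
  obtain ⟨T, hT⟩ : ∃ T : List (Σ k, M.tm.Γ k), ∀ x, x ∈ T ↔
      x ∈ ((⋃ l, pushes (M.tm.m l)) ∪ (Set.range (fun b => (⟨M.tm.k₀, inp b⟩ : Σ k, M.tm.Γ k)) ∪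
        Set.range fun b => (⟨M.tm.k₁, out b⟩ : Σ k, M.tm.Γ k))) := by
    have hfin : ((⋃ l, pushes (M.tm.m l)) ∪ (Set.range (fun b => (⟨M.tm.k₀, inp b⟩ :
        Σ k, M.tm.Γ k)) ∪ Set.range fun b => (⟨M.tm.k₁, out b⟩ : Σ k, M.tm.Γ k))).Finite :=
      (Set.finite_iUnion fun l => pushes_finite (M.tm.m l)).union
        ((Set.finite_range _).union (Set.finite_range _))
    exact ⟨hfin.toFinset.toList, fun x => by rw [Finset.mem_toList, Set.Finite.mem_toFinset]⟩
  have hT1 : ∀ l, ∀ x ∈ pushes (M.tm.m l), x ∈ T := fun l x hx =>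
    (hT x).2 (Or.inl (Set.mem_iUnion.2 ⟨l, hx⟩))
  have hT2 : ∀ b, (⟨M.tm.k₀, inp b⟩ : Σ k, M.tm.Γ k) ∈ T := fun b =>
    (hT _).2 (Or.inr (Or.inl ⟨b, rfl⟩))
  have hT3 : ∀ b, (⟨M.tm.k₁, out b⟩ : Σ k, M.tm.Γ k) ∈ T := fun b =>
    (hT _).2 (Or.inr (Or.inr ⟨b, rfl⟩))
  -- the initial configuration
  set init : Raw → Fi (Option M.tm.Λ) × Fi M.tm.σ × (M.tm.K → List ℕ) := fun x =>
    (⟨some M.tm.main⟩, ⟨M.tm.initialState⟩, fun k =>
      if k = M.tm.k₀ then x.w.map (fun b => idx T M.tm.k₀ (inp b)) else []) with hinit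
  have hPinit : PT A init := by
    refine (PT.const _).pair ((PT.const _).pair (PT_pi fun k => ?_))
    by_cases h : k = M.tm.k₀
    · have h1 : PT A (fun x : Raw => x.w.map (fun b => idx T M.tm.k₀ (inp b))) := by
        refine PT.map (f := fun (_ : Raw) b => idx T M.tm.k₀ (inp b)) (PT.listOfRaw PT.id) ?_
        refine (PT.cond (c := fun p : Raw × Bool => p.2) PT.snd'
          (PT.const (idx T M.tm.k₀ (inp true))) (PT.const (idx T M.tm.k₀ (inp false)))).congr
          fun p => ?_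
        cases p.2 <;> rfl
      exact h1.congr fun x => by rw [if_pos h]
    · exact (PT.const ([] : List ℕ)).congr fun x => by rw [if_neg h]
  have hinit_eq : ∀ w : Word, init ⟨w⟩ = cf T (initList M.tm (w.map inp)) := by
    intro w
    simp only [hinit, cf, initList]
    refine Prod.ext rfl (Prod.ext rfl (funext fun k => ?_))
    by_cases h : k = M.tm.k₀
    · subst h
      simp [mp]
    · simp [mp, h]
  have hOk : ∀ w : Word, Ok T (initList M.tm (w.map inp)).stk := by
    intro w k γ hγ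
    by_cases h : k = M.tm.k₀
    · subst h
      simp only [initList, dite_true] at hγ
      obtain ⟨b, -, rfl⟩ := List.mem_map.1 hγ
      exact hT2 b
    · simp [initList, h] at hγ
  -- the clock
  obtain ⟨c, hc⟩ := (PB.of_polynomial M.time).exists_pb
  obtain ⟨u, hu, hu'⟩ := PT.exists_clock A Raw c
  obtain ⟨c', hc'⟩ := simStep_size T M.tm.m
  have hrun : PT A (fun x : Raw => (simStep T M.tm.m)^[esize (u x)] (init x)) := by
    have hB : PBd (fun x : Raw => (2 * Fintype.card (Option M.tm.Λ) +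
        (2 * Fintype.card M.tm.σ + (esize (init x) + esize (u x) * c')) + 2)) := by
      have := hPinit.pbd
      have := hu.pbd
      fun_prop
    refine PT.iterate_esize hu hPinit (PT_simStep T M.tm.m) hB fun x j hj => ?_
    refine (esize_cf _).trans ?_
    have h1 := hc' (init x) j
    have h4 : esize (init x).2.2 ≤ esize (init x) :=
      (esize_snd_le (init x).2).trans (esize_snd_le (init x))
    have h5 := Nat.mul_le_mul_right c' hj
    exact Nat.add_le_add_right (Nat.add_le_add_left (Nat.add_le_add_left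
      (h1.trans (Nat.add_le_add h4 h5)) _) _) _
  have hfin : PT A (fun x : Raw => Raw.mk ((((simStep T M.tm.m)^[esize (u x)] (init x)).2.2
      M.tm.k₁).map fun i => decide (i = idx T M.tm.k₁ (out true)))) := by
    refine PT.rawOfList (PT.map (f := fun (_ : Raw) i => decide (i = idx T M.tm.k₁ (out true)))
      (PT_apply hrun.snd.snd M.tm.k₁) ?_)
    exact PT.eqNat PT.snd' (PT.const _)
  obtain ⟨g, hg, hg'⟩ := hfin
  refine ⟨g, hg, fun a => ?_⟩
  set w := ea a with hw
  have h1 := hg' ⟨w⟩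
  have h2 : g w = (((simStep T M.tm.m)^[esize (u ⟨w⟩)] (init ⟨w⟩)).2.2
      M.tm.k₁).map fun i => decide (i = idx T M.tm.k₁ (out true)) := h1
  rw [h2, hinit_eq, (simStep_iterate hT1 _ (hOk w) _).1]
  obtain ⟨⟨n, hn⟩, hnm⟩ := M.outputsFun a
  have h3 : n ≤ esize (u ⟨w⟩) := by
    rw [hu']
    exact hnm.trans (hc _)
  rw [tstep_iterate' M.tm.m n _ _ hn rfl _ h3]
  have h4 : (cf T (haltList M.tm ((eb (f a)).map out))).2.2 M.tm.k₁ =
      (eb (f a)).map fun b => idx T M.tm.k₁ (out b) := by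
    simp [cf, mp, haltList]
  refine (congrArg (List.map fun i => decide (i = idx T M.tm.k₁ (out true))) h4).trans ?_
  rw [List.map_map]
  conv_rhs => rw [← List.map_id (eb (f a))]
  refine List.map_congr_left fun b _ => ?_
  cases b
  · simp only [Function.comp_apply, id_eq, decide_eq_false_iff_not]
    intro h5
    have := idx_inj (hT3 false) h5
    exact absurd (M.outputAlphabet.symm.injective this) (by decide)
  · simp

/-- An approximation algorithm in the typed polynomial time library. -/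
theorem PT_of_hasApproximation {ρ : ℝ} (h : HasApproximation ρ) :
    ∃ f : List (List ℕ) → List ℕ, PT ∅ f ∧
      ∀ S, IsSuperstring S (f S) ∧ ((f S).length : ℝ) ≤ ρ * opt S := by
  obtain ⟨f, ⟨M, -⟩, hf⟩ := h
  obtain ⟨g, hg, e⟩ := exists_FP_of_tm2 (A := ∅) M
  rw [codeString_eq, codeInstance_eq] at e
  exact ⟨f, ⟨g, hg, e⟩, hf⟩

/-- The gap problem: an instance and a threshold `t`; either `ρ · OPT ≤ t` or `t < OPT`. -/
def ScsGap (ρ : ℝ) : Promise (List (List ℕ) × ℕ) where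
  yes p := ρ * opt p.1 ≤ p.2
  no p := p.2 < opt p.1

/-- An approximation algorithm decides the gap problem. -/
theorem inP_of_approx {ρ : ℝ} (h : Hard (ScsGap ρ)) (ha : HasApproximation ρ)
    {L : Set (List Bool)} (hL : InNP L) : InP L := by
  obtain ⟨f, hf, hf'⟩ := PT_of_hasApproximation ha
  have h1 : PT ∅ fun p : List (List ℕ) × ℕ => decide ((f p.1).length ≤ p.2) :=
    PT.le (PT.length (hf.comp PT.fst')) PT.snd'
  obtain ⟨g, hg, e⟩ := h1
  refine h.inP_of_decides hg (fun x hx => ?_) (fun x hx => ?_) hL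
  · have h2 : ((f x.1).length : ℝ) ≤ x.2 := (hf' x.1).2.trans hx
    have h3 : (f x.1).length ≤ x.2 := by exact_mod_cast h2
    rw [e]
    simp [enc_bool, h3]
  · have h2 : ¬ (f x.1).length ≤ x.2 := not_le.2 (lt_of_lt_of_le hx (opt_le (hf' x.1).1))
    rw [e]
    simp [enc_bool, h2]

/-- The same with an explicit rational gap. -/
theorem inP_of_gap' {a b : ℕ} (hb : 0 < b) {ρ : ℝ} {Q : Promise (List (List ℕ) × ℕ)} (h : Hard Q)
    (hy : ∀ x, Q.yes x → opt x.1 ≤ x.2) (hn : ∀ x, Q.no x → a * x.2 < b * opt x.1)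
    (hA : HasApproximation ρ) (hr : ρ ≤ a / b) {L : Set (List Bool)} (hL : InNP L) : InP L := by
  obtain ⟨f, hf, hf'⟩ := PT_of_hasApproximation (hA.mono hr)
  have h1 : PT ∅ fun p : List (List ℕ) × ℕ => decide (b * (f p.1).length ≤ a * p.2) :=
    PT.le (PT.mul (PT.const b) (PT.length (hf.comp PT.fst'))) (PT.mul (PT.const a) PT.snd')
  obtain ⟨g, hg, e⟩ := h1
  have hb' : (0 : ℝ) < b := by exact_mod_cast hb
  refine h.inP_of_decides hg (fun x hx => ?_) (fun x hx => ?_) hL
  · have h2 := (hf' x.1).2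
    rw [div_mul_eq_mul_div, le_div_iff₀ hb'] at h2
    have h3 : (f x.1).length * b ≤ a * opt x.1 := by exact_mod_cast h2
    have h4 : b * (f x.1).length ≤ a * x.2 := by
      rw [mul_comm]
      exact h3.trans (Nat.mul_le_mul_left _ (hy x hx))
    rw [e]
    simp [enc_bool, h4]
  · have h2 : ¬ b * (f x.1).length ≤ a * x.2 :=
      not_le.2 (lt_of_lt_of_le (hn x hx) (Nat.mul_le_mul_left _ (opt_le (hf' x.1).1)))
    rw [e]
    simp [enc_bool, h2]

theorem inP_of_gap {ρ : ℝ} {Q : Promise (List (List ℕ) × ℕ)} (h : Hard Q)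
    (hy : ∀ x, Q.yes x → opt x.1 ≤ x.2) (hn : ∀ x, Q.no x → 148 * x.2 < 147 * opt x.1)
    (hA : HasApproximation ρ) (hr : ρ ≤ 148 / 147) {L : Set (List Bool)} (hL : InNP L) : InP L :=
  inP_of_gap' (by norm_num) h hy hn hA (by exact_mod_cast hr) hL

/-- The final statement, from inapproximability and a `2`-approximation. -/
theorem final_of_inapprox {c : ℝ}
    (h1 : ∀ ρ : ℝ, ρ ≤ c → HasApproximation ρ → ∀ L, InNP L → InP L) (h2 : HasApproximation 2) :
    ((∃ L, InNP L ∧ ¬ InP L) → c ≤ rhoStar) ∧ rhoStar ≤ 2 := by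
  refine ⟨fun ⟨L, hL, hn⟩ => ?_, rhoStar_le (by norm_num) h2⟩
  refine le_csInf ⟨2, by norm_num, h2⟩ fun ρ hρ => ?_
  by_contra hc
  exact hn (h1 ρ (not_le.1 hc).le hρ.2 L hL)

/-- The final statement, from the hardness of the gap problem and a `2`-approximation. -/
theorem final_of_gap {c : ℝ} (h : Hard (ScsGap c)) (h2 : HasApproximation 2) :
    (∀ ρ : ℝ, ρ ≤ c → HasApproximation ρ → ∀ L, InNP L → InP L) ∧
      ((∃ L, InNP L ∧ ¬ InP L) → c ≤ rhoStar) ∧ rhoStar ≤ 2 := by
  have h1 : ∀ ρ : ℝ, ρ ≤ c → HasApproximation ρ → ∀ L, InNP L → InP L :=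
    fun ρ hρ ha L hL => inP_of_approx h (ha.mono hρ) hL
  refine ⟨h1, fun ⟨L, hL, hn⟩ => ?_, rhoStar_le (by norm_num) h2⟩
  refine le_csInf ⟨2, by norm_num, h2⟩ fun ρ hρ => ?_
  by_contra hc
  exact hn (h1 ρ (not_le.1 hc).le hρ.2 L hL)

end Vale.Agent.N333
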